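import Crest.Agent.N233.Pc.Defs

/-!
# Row 233 (helper53): local models, coordinates on the circle, the prism
-/

set_option autoImplicit false
open Set Topology Filter

noncomputable section

namespace Crest.Agent.N233.Pc

/-! ### local models -/

section LE

variable {H H' X Y : Type} [TopologicalSpace H] [TopologicalSpace H'] [TopologicalSpace X]
  [TopologicalSpace Y] {x : X} {y : Y}

theorem le_self (x : H) : LE H x := ⟨OpenPartialHomeomorph.refl H, mem_univ _⟩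

theorem LE.of_oph (e : OpenPartialHomeomorph X Y) (hx : x ∈ e.source) (h : LE H (e x)) : LE H x :=
  let ⟨c, hc⟩ := h; ⟨e.trans c, hx, hc⟩

theorem LE.to_oph (e : OpenPartialHomeomorph X Y) (hx : x ∈ e.source) (h : LE H x) : LE H (e x) :=
  LE.of_oph e.symm (e.map_source hx) (by rwa [e.left_inv hx])

theorem LE.comap {f : X → Y} (hf : IsOpenEmbedding f) (h : LE H (f x)) : LE H x :=
  haveI : Nonempty X := ⟨x⟩
  LE.of_oph (hf.toOpenPartialHomeomorph f) (mem_univ _) h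

theorem LE.map {f : X → Y} (hf : IsOpenEmbedding f) (h : LE H x) : LE H (f x) :=
  haveI : Nonempty X := ⟨x⟩
  LE.to_oph (hf.toOpenPartialHomeomorph f) (mem_univ _) h

theorem le_homeo (φ : X ≃ₜ Y) : LE H (φ x) ↔ LE H x :=
  ⟨LE.comap φ.isOpenEmbedding, LE.map φ.isOpenEmbedding⟩

theorem LE.trans (h : LE H x) (h' : ∀ y : H, LE H' y) : LE H' x :=
  let ⟨e, he⟩ := h; LE.of_oph e he (h' _)

theorem LE.model (φ : H ≃ₜ H') (h : LE H x) : LE H' x :=
  h.trans fun _ => (le_homeo φ).1 (le_self _)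

theorem LE.prod (h : LE H x) (h' : LE H' y) : LE (H × H') (x, y) :=
  let ⟨e, he⟩ := h; let ⟨e', he'⟩ := h'; ⟨e.prod e', he, he'⟩

theorem LE.prod' {z : X × Y} (h : LE H z.1) (h' : LE H' z.2) : LE (H × H') z := h.prod h'

/-- mutually inverse maps between open sets -/
def ophOf (f : X → Y) (g : Y → X) {U : Set X} {V : Set Y} (hU : IsOpen U) (hV : IsOpen V)
    (hf : ContinuousOn f U) (hg : ContinuousOn g V) (m : MapsTo f U V) (m' : MapsTo g V U)
    (l : ∀ x ∈ U, g (f x) = x) (r : ∀ y ∈ V, f (g y) = y) : OpenPartialHomeomorph X Y where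
  toFun := f
  invFun := g
  source := U
  target := V
  map_source' := m
  map_target' := m'
  left_inv' := l
  right_inv' := r
  open_source := hU
  open_target := hV
  continuousOn_toFun := hf
  continuousOn_invFun := hg

theorem LE.of_inv (f : X → Y) (g : Y → X) {U : Set X} {V : Set Y} (hU : IsOpen U) (hV : IsOpen V)
    (hf : ContinuousOn f U) (hg : ContinuousOn g V) (m : MapsTo f U V) (m' : MapsTo g V U)
    (l : ∀ x ∈ U, g (f x) = x) (r : ∀ y ∈ V, f (g y) = y) (hx : x ∈ U) (h : LE H (f x)) : LE H x :=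
  LE.of_oph (ophOf f g hU hV hf hg m m' l r) hx h

/-- a subtype that is a neighbourhood -/
theorem le_subtype {p : X → Prop} (x : Subtype p) (hp : ∀ᶠ y in 𝓝 x.1, p y) :
    LE H x ↔ LE H x.1 := by
  obtain ⟨U, hU, ho, hx⟩ := mem_nhds_iff.1 hp
  have e1 : IsOpenEmbedding (inclusion hU : U → {y | p y}) :=
    IsOpenEmbedding.inclusion hU (ho.preimage continuous_subtype_val)
  exact ⟨fun h => LE.map (x := (⟨x.1, hx⟩ : U)) ho.isOpenEmbedding_subtypeVal (LE.comap e1 h),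
    fun h => LE.map (x := (⟨x.1, hx⟩ : U)) e1 (LE.comap ho.isOpenEmbedding_subtypeVal h)⟩

theorem LE.subtype {p : X → Prop} {x : Subtype p} (hp : ∀ᶠ y in 𝓝 x.1, p y) (h : LE H x.1) :
    LE H x := (le_subtype x hp).2 h

/-- finitely many strict inequalities -/
theorem LE.of_pos {J : Type} [Finite J] {t : X → J → ℝ} (ht : ∀ j, Continuous fun x => t x j)
    {x : {x : X // ∀ j, 0 ≤ t x j}} (hx : ∀ j, 0 < t x.1 j) (h : LE H x.1) : LE H x :=
  h.subtype ((eventually_all.2 fun j => (ht j).continuousAt.eventually (lt_mem_nhds (hx j))).mono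
    fun _ hy j => (hy j).le)

/-- change of the model to `E4` -/
theorem LE.fin {V : Type} [NormedAddCommGroup V] [NormedSpace ℝ V] [FiniteDimensional ℝ V]
    (hV : Module.finrank ℝ V = 4) (h : LE V x) : LE E4 x :=
  h.model (ContinuousLinearEquiv.ofFinrankEq (𝕜 := ℝ) (E := V) (F := E4)
    (by simp [hV])).toHomeomorph

/-- the atlas -/
@[reducible] def chartedOfLE (h : ∀ x : X, LE H x) : ChartedSpace H X where
  atlas := univ
  chartAt x := (h x).choose
  mem_chart_source x := (h x).choose_spec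
  chart_mem_atlas _ := mem_univ _




/-- the left inverse may be given in an ambient space -/
theorem emb_of_amb {Z : Type} [TopologicalSpace Z] {f : X → Y} (hf : Continuous f) {i : X → Z}
    (hi : IsEmbedding i) {g : Y → Z} {U : Set Y} (hU : ∀ x, f x ∈ U) (hg : ContinuousOn g U)
    (l : ∀ x, g (f x) = i x) : IsEmbedding f :=
  IsEmbedding.subtypeVal.comp (IsEmbedding.of_comp (f := fun x => (⟨f x, hU x⟩ : U))
    (g := fun y : U => g y.1) (hf.subtype_mk _) hg.restrict (by rwa [show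
      ((fun y : U => g y.1) ∘ fun x => (⟨f x, hU x⟩ : U)) = i from funext l]))

end LE

/-! ### the circle -/

@[fun_prop] theorem continuous_sc : Continuous sc := by unfold sc; fun_prop
@[fun_prop] theorem continuous_al : Continuous al := by unfold al; fun_prop
@[fun_prop] theorem continuous_nb : Continuous nb := by unfold nb; fun_prop
@[fun_prop] theorem continuous_fl : Continuous fl := by unfold fl; fun_prop
@[fun_prop] theorem continuous_ht : Continuous ht := by unfold ht; fun_prop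

theorem nz_pos (z : R2) : 0 < max ‖z‖ (1 / 2) := lt_max_of_lt_right one_half_pos

@[fun_prop] theorem continuous_nz : Continuous nz :=
  ((continuous_norm.max continuous_const).inv₀ fun z => (nz_pos z).ne').smul continuous_id

theorem nrm (k : R2) : ‖k‖ = max |k.1| |k.2| := rfl

theorem norm_KK (k : KK) : ‖k.1‖ = 1 := by simpa using k.2

theorem mem_KK {k : R2} : k ∈ Metric.sphere (0 : R2) 1 ↔ ‖k‖ = 1 := by simp

/-- a point of the circle -/
def kk (k : R2) (h : ‖k‖ = 1) : KK := ⟨k, mem_KK.2 h⟩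

@[simp] theorem kk_val (k : R2) (h : ‖k‖ = 1) : (kk k h).1 = k := rfl

theorem unit_iff {k : R2} : ‖k‖ = 1 ↔ |k.1| ≤ 1 ∧ |k.2| ≤ 1 ∧ (|k.1| = 1 ∨ |k.2| = 1) := by
  rw [nrm]
  refine ⟨fun h => ⟨h ▸ le_max_left _ _, h ▸ le_max_right _ _, ?_⟩, fun ⟨h1, h2, h3⟩ => ?_⟩
  · rcases max_choice |k.1| |k.2| with e | e
    exacts [Or.inl (e ▸ h), Or.inr (e ▸ h)]
  · rcases h3 with e | e
    · rw [e, max_eq_left h2]
    · rw [e, max_eq_right h1]

theorem unit_cases {k : R2} (h : ‖k‖ = 1) : -1 ≤ k.1 ∧ k.1 ≤ 1 ∧ -1 ≤ k.2 ∧ k.2 ≤ 1 ∧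
    (k.1 = 1 ∨ k.1 = -1 ∨ k.2 = 1 ∨ k.2 = -1) := by
  obtain ⟨h1, h2, h3⟩ := unit_iff.1 h
  rw [abs_le] at h1 h2
  rw [abs_eq zero_le_one, abs_eq zero_le_one] at h3
  exact ⟨h1.1, h1.2, h2.1, h2.2, by tauto⟩

@[simp] theorem fl_fst (k : R2) : (fl k).1 = k.1 := rfl
@[simp] theorem fl_snd (k : R2) : (fl k).2 = -k.2 := rfl
@[simp] theorem fl_fl (k : R2) : fl (fl k) = k := by simp [fl]
@[simp] theorem norm_fl (k : R2) : ‖fl k‖ = ‖k‖ := by simp [nrm]
theorem fl_mk (a b : ℝ) : fl (a, b) = (a, -b) := rfl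

theorem sc_bot (a : ℝ) : sc (a, -1) = a := by simp only [sc]; ring

theorem nb_bot (a : ℝ) : nb (a, -1) = |a| := by simp [nb, sc_bot]


theorem abs_sc_le (k : R2) : |sc k| ≤ nb k := le_max_left _ _


theorem snd_lt_of_nb {k : R2} (h : nb k < 2) : k.2 < 1 := by
  have : k.2 + 1 ≤ nb k := le_max_right _ _
  linarith

theorem al_of_le {s : ℝ} (h : |s| ≤ 1) : al s = (s, -1) := by
  rw [al, min_eq_right (abs_le.1 h).2, max_eq_right (abs_le.1 h).1, max_eq_left (by linarith)]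

theorem al_of_ge {s : ℝ} (h : 1 ≤ s) : al s = (1, s - 2) := by
  rw [al, min_eq_left h, max_eq_right (by norm_num), abs_of_nonneg (by linarith),
    max_eq_right (by linarith)]

theorem al_of_le' {s : ℝ} (h : s ≤ -1) : al s = (-1, -s - 2) := by
  rw [al, min_eq_right (by linarith), max_eq_left h, abs_of_nonpos (by linarith),
    max_eq_right (by linarith)]

theorem al_cases (s : ℝ) : (|s| ≤ 1 ∧ al s = (s, -1)) ∨ (1 ≤ s ∧ al s = (1, s - 2)) ∨
    (s ≤ -1 ∧ al s = (-1, -s - 2)) := by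
  rcases le_total 1 s with h | h
  · exact Or.inr (Or.inl ⟨h, al_of_ge h⟩)
  rcases le_total s (-1) with h' | h'
  · exact Or.inr (Or.inr ⟨h', al_of_le' h'⟩)
  · exact Or.inl ⟨abs_le.2 ⟨h', h⟩, al_of_le (abs_le.2 ⟨h', h⟩)⟩

theorem sc_al (s : ℝ) : sc (al s) = s := by
  rcases al_cases s with ⟨-, e⟩ | ⟨-, e⟩ | ⟨-, e⟩ <;> rw [e, sc] <;> ring

theorem norm_al {s : ℝ} (h : |s| ≤ 3) : ‖al s‖ = 1 := by
  rw [abs_le] at h
  rcases al_cases s with ⟨h', e⟩ | ⟨h', e⟩ | ⟨h', e⟩ <;> rw [e, unit_iff]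
  · simpa using h'
  · exact ⟨by simp, abs_le.2 ⟨by linarith, by linarith⟩, by simp⟩
  · exact ⟨by simp, abs_le.2 ⟨by linarith, by linarith⟩, by simp⟩

theorem al_snd_lt {s : ℝ} (h : |s| < 3) : (al s).2 < 1 := max_lt (by norm_num) (by linarith)


theorem al_sc' {k : R2} (h : ‖k‖ = 1) (h2 : k.2 < 1 ∨ |k.1| = 1) : al (sc k) = k := by
  obtain ⟨h3, h4, h5, h6, h7⟩ := unit_cases h
  obtain ⟨a, b⟩ := k
  simp only at h2 h3 h4 h5 h6 h7
  have e1 : a = 1 → al (sc (a, b)) = (a, b) := by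
    rintro rfl
    rw [al_of_ge (by simp only [sc]; linarith)]; simp [sc]
  have e2 : a = -1 → al (sc (a, b)) = (a, b) := by
    rintro rfl
    rw [al_of_le' (by simp only [sc]; linarith)]; simp [sc]
  rcases h7 with e | e | e | e
  · exact e1 e
  · exact e2 e
  · rcases h2 with h2 | h2
    · exact absurd e h2.ne
    · exact ((abs_eq zero_le_one).1 h2).elim e1 e2
  · rw [e, sc_bot, al_of_le (abs_le.2 ⟨h3, h4⟩)]

theorem al_sc {k : R2} (h : ‖k‖ = 1) (h2 : k.2 < 1) : al (sc k) = k := al_sc' h (Or.inl h2)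

theorem al_sc_nb {k : R2} (h : ‖k‖ = 1) (h2 : nb k < 2) : al (sc k) = k := al_sc h (snd_lt_of_nb h2)



theorem abs_sc_lt {k : R2} (h : ‖k‖ = 1) (h2 : k.2 < 1) : |sc k| < 3 := by
  obtain ⟨h3, h4, h5, -, -⟩ := unit_cases h
  rw [sc, abs_lt]
  constructor <;> nlinarith


theorem bot_of_nb {k : R2} (h : ‖k‖ = 1) (h2 : nb k ≤ 1) : k.2 = -1 ∧ sc k = k.1 := by
  have e := al_sc_nb h (by linarith)
  rw [al_of_le ((abs_sc_le k).trans h2)] at e
  exact ⟨(congrArg Prod.snd e).symm, congrArg Prod.fst e⟩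


theorem nb_lt_one_iff {k : R2} (h : ‖k‖ = 1) : nb k < 1 ↔ k.2 = -1 ∧ |k.1| < 1 := by
  refine ⟨fun h2 => ?_, fun h2 => ?_⟩
  · obtain ⟨e, e'⟩ := bot_of_nb h h2.le
    exact ⟨e, e' ▸ (abs_sc_le k).trans_lt h2⟩
  · rw [show k = (k.1, -1) from Prod.ext rfl h2.1, nb_bot]; exact h2.2

/-- `al` as a map to the circle (clamped) -/
def alK (s : ℝ) : KK :=
  kk (al (max (-3) (min 3 s))) (norm_al (abs_le.2 ⟨le_max_left _ _,
    max_le (by norm_num) (min_le_left _ _)⟩))

theorem alK_val {s : ℝ} (h : |s| ≤ 3) : (alK s).1 = al s := by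
  rw [alK, kk_val, min_eq_right (abs_le.1 h).2, max_eq_right (abs_le.1 h).1]

@[fun_prop] theorem continuous_alK : Continuous alK :=
  Continuous.subtype_mk (by fun_prop) _

theorem alK_sc {k : KK} (h : k.1.2 < 1) : alK (sc k.1) = k :=
  Subtype.ext (by rw [alK_val (abs_sc_lt (norm_KK k) h).le, al_sc (norm_KK k) h])

/-- the reflection of the circle -/
def flK : KK ≃ₜ KK where
  toFun k := kk (fl k.1) (by rw [norm_fl, norm_KK])
  invFun k := kk (fl k.1) (by rw [norm_fl, norm_KK])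
  left_inv k := Subtype.ext (fl_fl _)
  right_inv k := Subtype.ext (fl_fl _)
  continuous_toFun := Continuous.subtype_mk (by fun_prop) _
  continuous_invFun := Continuous.subtype_mk (by fun_prop) _

@[simp] theorem flK_val (k : KK) : (flK k).1 = fl k.1 := rfl

theorem le_KK (k : KK) : LE ℝ k := by
  have key : ∀ k : KK, k.1.2 < 1 → LE ℝ k := fun k hk =>
    LE.of_inv (fun k : KK => sc k.1) alK (U := {k | k.1.2 < 1}) (V := {s | |s| < 3})
      (isOpen_lt (by fun_prop) continuous_const) (isOpen_lt (by fun_prop) continuous_const)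
      (Continuous.continuousOn (by fun_prop)) continuous_alK.continuousOn
      (fun k hk => abs_sc_lt (norm_KK k) hk)
      (fun s hs => by
        show (alK s).1.2 < 1
        rw [alK_val (le_of_lt hs)]; exact al_snd_lt hs)
      (fun _ hk => alK_sc hk) (fun s hs => by rw [alK_val (le_of_lt hs), sc_al]) hk (le_self _)
  rcases lt_or_ge k.1.2 1 with h | h
  · exact key k h
  · exact (le_homeo flK).1 (key _ (by simp only [flK_val, fl_snd]; linarith))

theorem le_VW (x : VW × ℝ) : LE E4 x :=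
  (((le_KK x.1.1).prod' (le_self x.1.2)).prod' (le_self x.2)).fin (by simp)


theorem le_RR (x : R2 × R2) : LE E4 x := (le_self x).fin (by simp)

/-! ### polar coordinates -/

theorem nz_of {z : R2} (h : 1 / 2 ≤ ‖z‖) : nz z = ‖z‖⁻¹ • z := by rw [nz, max_eq_left h]


theorem norm_nz {z : R2} (h : 1 / 2 ≤ ‖z‖) : ‖nz z‖ = 1 := by
  rw [nz_of h, norm_smul, norm_inv, norm_norm, inv_mul_cancel₀ (by linarith)]


theorem smul_nz {z : R2} (h : 1 / 2 ≤ ‖z‖) : ‖z‖ • nz z = z := by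
  rw [nz_of h, smul_smul, mul_inv_cancel₀ (by linarith), one_smul]

theorem norm_smul_unit {k : R2} (h : ‖k‖ = 1) {a : ℝ} (ha : 0 ≤ a) : ‖a • k‖ = a := by
  rw [norm_smul, h, mul_one, Real.norm_of_nonneg ha]

theorem nz_smul {k : R2} (h : ‖k‖ = 1) {a : ℝ} (ha : 1 / 2 ≤ a) : nz (a • k) = k := by
  have e := norm_smul_unit h (a := a) (by linarith)
  rw [nz_of (e.symm ▸ ha), e, smul_smul, inv_mul_cancel₀ (by linarith), one_smul]


theorem nz_smul_nz {z : R2} (h : 1 / 2 ≤ ‖z‖) {a : ℝ} (ha : 1 / 2 ≤ a) : nz (a • nz z) = nz z :=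
  nz_smul (norm_nz h) ha


theorem eq_of_nz {z z' : R2} (h : 1 / 2 ≤ ‖z‖) (e : ‖z‖ = ‖z'‖) (e' : nz z = nz z') : z = z' := by
  rw [← smul_nz h, ← smul_nz (e ▸ h : 1 / 2 ≤ ‖z'‖), e, e']

theorem ht_nonneg (z : R2) : 0 ≤ ht z := le_max_left _ _

theorem ht_pos {z : R2} : 0 < ht z ↔ 1 < ‖z‖ := by simp [ht]

theorem ht_eq_zero {z : R2} : ht z = 0 ↔ ‖z‖ ≤ 1 := by simp [ht]

theorem ht_of {z : R2} (h : 1 ≤ ‖z‖) : ht z = ‖z‖ - 1 := max_eq_right (by linarith)

theorem ht_le {z : R2} {R : ℝ} (h : ht z ≤ R) : ‖z‖ ≤ R + 1 := by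
  have : ‖z‖ - 1 ≤ ht z := le_max_right _ _
  linarith

theorem ht_smul {k : R2} (h : ‖k‖ = 1) {a : ℝ} (ha : 0 ≤ a) : ht (a • k) = max 0 (a - 1) := by
  rw [ht, norm_smul_unit h ha]

theorem ht_smul' {k : R2} (h : ‖k‖ = 1) {a : ℝ} (ha : 0 ≤ a) : ht ((a + 1) • k) = a := by
  rw [ht_smul h (by linarith), add_sub_cancel_right, max_eq_right ha]


theorem eq_of_ht {z z' : R2} (h : 0 < ht z) (e : ht z = ht z') (e' : nz z = nz z') : z = z' := by
  have h1 := ht_pos.1 h
  have h2 := ht_pos.1 (e ▸ h : 0 < ht z')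
  rw [ht_of h1.le, ht_of h2.le] at e
  exact eq_of_nz (by linarith) (by linarith) e'

/-! ### the prism `‖w‖ ≤ 1 ≤ ρ` -/

/-- the point at signed distance `σ` over the wall point `z` -/
def qp (z : R2) (σ : ℝ) : R2 × ℝ := (((1 + σ) / max 1 ‖z‖) • z, max 1 ‖z‖ - σ)


/-- the signed distance -/
def tq (w : R2) (ρ : ℝ) : ℝ := max (‖w‖ - 1) (1 - ρ)


theorem mx_pos (z : R2) : 0 < max 1 ‖z‖ := lt_max_of_lt_left one_pos


@[fun_prop] theorem continuous_qp {X : Type} [TopologicalSpace X] {z : X → R2} {σ : X → ℝ}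
    (hz : Continuous z) (hσ : Continuous σ) : Continuous fun x => qp (z x) (σ x) :=
  (((continuous_const.add hσ).div (continuous_const.max hz.norm) fun _ => (mx_pos _).ne').smul
    hz).prodMk ((continuous_const.max hz.norm).sub hσ)

@[fun_prop] theorem continuous_tq {X : Type} [TopologicalSpace X] {w : X → R2} {ρ : X → ℝ}
    (hw : Continuous w) (hρ : Continuous ρ) : Continuous fun x => tq (w x) (ρ x) := by
  unfold tq; fun_prop


theorem norm_qp (z : R2) {σ : ℝ} (h : -1 ≤ σ) : ‖(qp z σ).1‖ = (1 + σ) * (‖z‖ / max 1 ‖z‖) := by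
  rw [qp, norm_smul, Real.norm_of_nonneg (div_nonneg (by linarith) (mx_pos z).le)]; ring

theorem norm_qp_le (z : R2) {σ : ℝ} (h : -1 ≤ σ) : ‖(qp z σ).1‖ ≤ 1 + σ := by
  rw [norm_qp z h]
  exact mul_le_of_le_one_right (by linarith) ((div_le_one (mx_pos z)).2 (le_max_right _ _))



theorem qp_of_le {z : R2} (h : ‖z‖ ≤ 1) (σ : ℝ) : qp z σ = ((1 + σ) • z, 1 - σ) := by
  rw [qp, max_eq_left h, div_one]








end Crest.Agent.N233.Pc

end
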