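import Crest.Agent.N233.Pc.TriA

-- ▼ part N233/Pc/Tri
section

/-!
# Row 233 (helper14): push forward of weights, linear triangulations
-/

set_option autoImplicit false
open Set Topology

noncomputable section

namespace Crest.Agent.N233.Pc

section pu

variable {S S' S'' G : Type} [Fintype S] [NormedAddCommGroup G] [NormedSpace ℝ G]

theorem le_pu (c : S → S') {y : S → ℝ} (h : ∀ s, 0 ≤ y s) (s : S) : y s ≤ pu c y (c s) := by
  classical
  have := Finset.single_le_sum (f := fun t => if c t = c s then y t else 0)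
    (fun t _ => by split_ifs; exacts [h t, le_rfl]) (Finset.mem_univ s)
  simp only [if_true] at this
  unfold pu
  convert this


theorem pu_ne (c : S → S') {y : S → ℝ} (h : ∀ s, 0 ≤ y s) (s' : S') :
    pu c y s' ≠ 0 ↔ s' ∈ c '' {s | y s ≠ 0} := Set.ext_iff.1 (supp_pu c h) s'



theorem sum_pu_smul [Fintype S'] (c : S → S') (y : S → ℝ) (φ : S' → G) :
    ∑ s', pu c y s' • φ s' = ∑ s, y s • φ (c s) := rl_pu φ c y

theorem pu_Cn {Fc : Set S → Prop} {Fc' : Set S' → Prop} {c : S → S'} {y : S → ℝ} (hy : y ∈ Cn Fc)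
    (h : ∀ A, Fc A → Fc' (c '' A)) : pu c y ∈ Cn Fc' :=
  ⟨pu_nonneg c hy.1, by rw [supp_pu c hy.1]; exact h _ hy.2⟩

theorem pu_Dl [Fintype S'] {Fc : Set S → Prop} {Fc' : Set S' → Prop} {c : S → S'} {y : S → ℝ}
    (hy : y ∈ Dl Fc) (h : ∀ A, Fc A → Fc' (c '' A)) : pu c y ∈ Dl Fc' :=
  ⟨pu_Cn hy.1 h, by rw [sum_pu, hy.2]⟩

theorem rl_pair {G' : Type} [NormedAddCommGroup G'] [NormedSpace ℝ G'] (f : S → G) (g : S → G')
    (y : S → ℝ) : rl (fun s => (f s, g s)) y = (rl f y, rl g y) := by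
  ext <;> simp [rl, Prod.fst_sum, Prod.snd_sum]

theorem rl_fst {G' : Type} [NormedAddCommGroup G'] [NormedSpace ℝ G'] (f : S → G × G')
    (y : S → ℝ) : (rl f y).1 = rl (fun s => (f s).1) y := by simp [rl, Prod.fst_sum]

theorem rl_snd {G' : Type} [NormedAddCommGroup G'] [NormedSpace ℝ G'] (f : S → G × G')
    (y : S → ℝ) : (rl f y).2 = rl (fun s => (f s).2) y := by simp [rl, Prod.snd_sum]

theorem rl_const {y : S → ℝ} (h : ∑ s, y s = 1) (a : G) : rl (fun _ => a) y = a := by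
  rw [rl, ← Finset.sum_smul, h, one_smul]

theorem Dl.ne {Fc : Set S → Prop} {y : S → ℝ} (hy : y ∈ Dl Fc) : y ≠ 0 := by
  rintro rfl
  simpa using hy.2



/-- weighted means -/
theorem le_mean {y φ : S → ℝ} (h : ∀ s, 0 ≤ y s) (h1 : ∑ s, y s = 1) {c : ℝ}
    (hc : ∀ s, y s ≠ 0 → c ≤ φ s) :
    c ≤ rl φ y ∧ (c < rl φ y ↔ ∃ s, y s ≠ 0 ∧ c < φ s) := by
  have e : rl φ y - c = ∑ s, y s * (φ s - c) := by
    simp only [mul_sub, Finset.sum_sub_distrib, ← Finset.sum_mul, h1, one_mul, rl, smul_eq_mul]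
  have p : ∀ s, 0 ≤ y s * (φ s - c) := fun s => by
    by_cases k : y s = 0
    · simp [k]
    · exact mul_nonneg (h s) (sub_nonneg.2 (hc s k))
  refine ⟨sub_nonneg.1 (e ▸ Finset.sum_nonneg fun s _ => p s), ?_⟩
  rw [← sub_pos, e, Finset.sum_pos_iff_of_nonneg fun s _ => p s]
  refine ⟨fun ⟨s, _, k⟩ => ⟨s, fun z => by simp [z] at k, ?_⟩, fun ⟨s, a, b⟩ =>
    ⟨s, Finset.mem_univ s, mul_pos ((h s).lt_of_ne' a) (sub_pos.2 b)⟩⟩
  by_contra w
  exact absurd k (not_lt.2 (mul_nonpos_of_nonneg_of_nonpos (h s) (sub_nonpos.2 (not_lt.1 w))))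

theorem mean_le {y φ : S → ℝ} (h : ∀ s, 0 ≤ y s) (h1 : ∑ s, y s = 1) {c : ℝ}
    (hc : ∀ s, y s ≠ 0 → φ s ≤ c) :
    rl φ y ≤ c ∧ (rl φ y < c ↔ ∃ s, y s ≠ 0 ∧ φ s < c) := by
  have := le_mean (φ := fun s => -φ s) h h1 (c := -c) fun s k => neg_le_neg (hc s k)
  have e : rl (fun s => -φ s) y = -rl φ y := by simp [rl]
  simpa only [e, neg_le_neg_iff, neg_lt_neg_iff] using this

end pu

namespace Tri

variable {S G : Type} [Fintype S] [NormedAddCommGroup G] [NormedSpace ℝ G] {Fc Fc' : Set S → Prop}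
  {pos : S → G} {C C' : Set G}

theorem rl_mem (T : Tri Fc pos C) {y : S → ℝ} (hy : y ∈ Dl Fc) : rl pos y ∈ C := T.bij.mapsTo hy


/-- subcomplexes -/
theorem sub (T : Tri Fc pos C) (le : ∀ A, Fc' A → Fc A)
    (down : ∀ A B : Set S, A ⊆ B → Fc' B → Fc' A) (emp : Fc' ∅) (hC : C' ⊆ C)
    (h : ∀ y ∈ Dl Fc, rl pos y ∈ C' ↔ Fc' {s | y s ≠ 0}) : Tri Fc' pos C' := by
  have m : Dl Fc' ⊆ Dl Fc := fun y hy => ⟨⟨hy.1.1, le _ hy.1.2⟩, hy.2⟩
  refine ⟨down, emp, fun y hy => (h y (m hy)).2 hy.1.2, T.bij.injOn.mono m, fun x hx => ?_⟩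
  obtain ⟨y, hy, rfl⟩ := T.bij.surjOn (hC hx)
  exact ⟨y, ⟨⟨hy.1.1, (h y hy).1 hx⟩, hy.2⟩, rfl⟩

theorem congr (T : Tri Fc pos C) (h : C = C') : Tri Fc pos C' := h ▸ T

end Tri

/-! ### the circle and the interval -/

theorem KF_down (A B : Set (Fin 4)) (h : A ⊆ B) : KF B → KF A := fun ⟨i, k⟩ => ⟨i, h.trans k⟩

theorem rl_vx (m : Fin 4 → ℝ) :
    rl vx m = (-m 0 + m 1 + m 2 - m 3, -m 0 - m 1 + m 2 + m 3) := by
  ext <;> simp [rl, vx, Fin.sum_univ_four] <;> ring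

theorem Dl_KF {m : Fin 4 → ℝ} : m ∈ Dl KF ↔ (∀ q, 0 ≤ m q) ∧ m 0 + m 1 + m 2 + m 3 = 1 ∧
    ((m 2 = 0 ∧ m 3 = 0) ∨ (m 0 = 0 ∧ m 3 = 0) ∨ (m 0 = 0 ∧ m 1 = 0) ∨ (m 1 = 0 ∧ m 2 = 0)) := by
  have e : ∀ i : Fin 4, {s | m s ≠ 0} ⊆ {i, i + 1} ↔ m (i + 2) = 0 ∧ m (i + 3) = 0 := fun i => by
    refine ⟨fun h => ⟨by_contra fun k => ?_, by_contra fun k => ?_⟩, fun h s k => ?_⟩
    · have := h k
      simp only [mem_insert_iff, mem_singleton_iff] at this
      clear k h; revert i; decide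
    · have := h k
      simp only [mem_insert_iff, mem_singleton_iff] at this
      clear k h; revert i; decide
    · have a : s ≠ i + 2 := fun e => k (e ▸ h.1)
      have b : s ≠ i + 3 := fun e => k (e ▸ h.2)
      simp only [mem_insert_iff, mem_singleton_iff]
      clear k h
      revert s i; decide
  simp only [Dl, Cn, KF, mem_setOf_eq, e, Fin.sum_univ_four, Fin.exists_fin_succ, Fin.exists_fin_zero]
  constructor
  · rintro ⟨⟨a, b⟩, c⟩
    refine ⟨a, c, ?_⟩
    rcases b with b | b | b | b | b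
    exacts [.inl b, .inr (.inl b.symm), .inr (.inr (.inl b)), .inr (.inr (.inr b)), b.elim]
  · rintro ⟨a, c, b⟩
    refine ⟨⟨a, ?_⟩, c⟩
    rcases b with b | b | b | b
    exacts [.inl b, .inr (.inl b.symm), .inr (.inr (.inl b)), .inr (.inr (.inr (.inl b)))]

theorem triK : Tri KF vx (Metric.sphere (0 : R2) 1) := by
  refine ⟨KF_down, ⟨0, empty_subset _⟩, fun m hm => ?_, fun m hm m' hm' h => ?_, fun x hx => ?_⟩
  · obtain ⟨a, b, c⟩ := Dl_KF.1 hm
    have := a 0; have := a 1; have := a 2; have := a 3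
    rw [mem_sphere_zero_iff_norm, rl_vx, Prod.norm_def, Real.norm_eq_abs, Real.norm_eq_abs]
    refine le_antisymm (max_le (abs_le.2 ⟨?_, ?_⟩) (abs_le.2 ⟨?_, ?_⟩)) ?_
    any_goals (simp only; linarith)
    rcases c with c | c | c | c
    · exact le_max_of_le_right (le_abs.2 (.inr (by simp only; linarith [c.1, c.2])))
    · exact le_max_of_le_left (le_abs.2 (.inl (by simp only; linarith [c.1, c.2])))
    · exact le_max_of_le_right (le_abs.2 (.inl (by simp only; linarith [c.1, c.2])))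
    · exact le_max_of_le_left (le_abs.2 (.inr (by simp only; linarith [c.1, c.2])))
  · obtain ⟨a, b, c⟩ := Dl_KF.1 hm
    obtain ⟨a', b', c'⟩ := Dl_KF.1 hm'
    have := a 0; have := a 1; have := a 2; have := a 3
    have := a' 0; have := a' 1; have := a' 2; have := a' 3
    rw [rl_vx, rl_vx, Prod.mk.injEq] at h
    obtain ⟨h1, h2⟩ := h
    have : m 0 = m' 0 ∧ m 1 = m' 1 ∧ m 2 = m' 2 ∧ m 3 = m' 3 := by
      rcases c with ⟨c, d⟩ | ⟨c, d⟩ | ⟨c, d⟩ | ⟨c, d⟩ <;>
        rcases c' with ⟨c', d'⟩ | ⟨c', d'⟩ | ⟨c', d'⟩ | ⟨c', d'⟩ <;>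
        exact ⟨by linarith, by linarith, by linarith, by linarith⟩
    funext q
    fin_cases q
    exacts [this.1, this.2.1, this.2.2.1, this.2.2.2]
  · obtain ⟨x, y⟩ := x
    rw [mem_sphere_zero_iff_norm, Prod.norm_def, Real.norm_eq_abs, Real.norm_eq_abs] at hx
    have hx1 := abs_le.1 ((le_max_left _ _).trans hx.le)
    have hy1 := abs_le.1 ((le_max_right _ _).trans hx.le)
    simp only at hx1 hy1
    have key : ∀ m : Fin 4 → ℝ, (∀ q, 0 ≤ m q) → m 0 + m 1 + m 2 + m 3 = 1 →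
        ((m 2 = 0 ∧ m 3 = 0) ∨ (m 0 = 0 ∧ m 3 = 0) ∨ (m 0 = 0 ∧ m 1 = 0) ∨ (m 1 = 0 ∧ m 2 = 0)) →
        -m 0 + m 1 + m 2 - m 3 = x → -m 0 - m 1 + m 2 + m 3 = y → (x, y) ∈ rl vx '' Dl KF :=
      fun m a b c d e => ⟨m, Dl_KF.2 ⟨a, b, c⟩, by rw [rl_vx, d, e]⟩
    have c : x = 1 ∨ x = -1 ∨ y = 1 ∨ y = -1 := by
      rcases max_eq_iff.1 hx with ⟨k, -⟩ | ⟨k, -⟩ <;> rcases (abs_eq zero_le_one).1 k with k | k <;>
        simp only at k <;> simp [k]
    rcases c with rfl | rfl | rfl | rfl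
    · refine key ![0, (1 - y) / 2, (1 + y) / 2, 0] (fun q => ?_) (by simp; ring) (by simp)
        (by simp; ring) (by simp; ring)
      fin_cases q <;> simp <;> linarith
    · refine key ![(1 - y) / 2, 0, 0, (1 + y) / 2] (fun q => ?_) (by simp; ring) (by simp)
        (by simp; ring) (by simp; ring)
      fin_cases q <;> simp <;> linarith
    · refine key ![0, 0, (1 + x) / 2, (1 - x) / 2] (fun q => ?_) (by simp; ring) (by simp)
        (by simp; ring) (by simp; ring)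
      fin_cases q <;> simp <;> linarith
    · refine key ![(1 - x) / 2, (1 + x) / 2, 0, 0] (fun q => ?_) (by simp; ring) (by simp)
        (by simp; ring) (by simp; ring)
      fin_cases q <;> simp <;> linarith

theorem IF_down (n : ℕ) (A B : Set (Fin (2 * n + 2))) (h : A ⊆ B) : IF n B → IF n A :=
  fun ⟨i, k⟩ => ⟨i, fun a ha => k a (h ha)⟩

/-- the hat functions invert the realisation of the path -/
theorem hat_eq {n : ℕ} {m : Fin (2 * n + 2) → ℝ} (hm : m ∈ Dl (IF n)) (a : Fin (2 * n + 2)) :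
    m a = max 0 (1 - |rl (fun b : Fin (2 * n + 2) => (b.1 : ℝ)) m - a.1|) := by
  classical
  obtain ⟨⟨h0, i, hi⟩, h1⟩ := hm
  set φ : Fin (2 * n + 2) → ℝ := fun b => (b.1 : ℝ) with hφ
  have lo := (le_mean (φ := φ) h0 h1 (c := i) fun s k => by
    rcases hi s k with e | e <;> simp [hφ, e]).1
  have up := (mean_le (φ := φ) h0 h1 (c := i + 1) fun s k => by
    rcases hi s k with e | e <;> simp [hφ, e]).1
  have one : ∀ ψ : Fin (2 * n + 2) → ℝ, (∀ s, m s ≠ 0 → ψ s = if s = a then 1 else 0) →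
      rl ψ m = m a := fun ψ hψ => by
    rw [rl, Finset.sum_eq_single a (fun s _ k => by
      by_cases z : m s = 0
      · simp [z]
      · simp [hψ s z, k]) (by simp)]
    by_cases z : m a = 0
    · simp [z]
    · simp [hψ a z]
  have aff : ∀ u v : ℝ, rl (fun s => u * φ s + v) m = u * rl φ m + v := fun u v => by
    simp only [rl, smul_eq_mul, mul_add, Finset.sum_add_distrib, ← Finset.sum_mul, h1, one_mul,
      Finset.mul_sum]
    exact congrArg (· + v) (Finset.sum_congr rfl fun s _ => by ring)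
  by_cases e : a.1 = i
  · have := one (fun s => -1 * φ s + (i + 1)) fun s k => by
      rcases hi s k with z | z
      · simp [hφ, z, Fin.ext_iff, e]
      · simp [hφ, z, Fin.ext_iff, e]
    rw [aff] at this
    rw [e, abs_of_nonneg (by linarith), max_eq_right (by linarith)]
    linarith
  by_cases e' : a.1 = i + 1
  · have := one (fun s => 1 * φ s + -i) fun s k => by
      rcases hi s k with z | z
      · simp [hφ, z, Fin.ext_iff, e']
      · simp [hφ, z, Fin.ext_iff, e']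
    rw [aff] at this
    rw [e', Nat.cast_succ, abs_of_nonpos (by linarith), max_eq_right (by linarith)]
    linarith
  have z : m a = 0 := by_contra fun k => (hi a k).elim e e'
  rw [z, max_eq_left]
  rcases (by omega : a.1 + 1 ≤ i ∨ i + 2 ≤ a.1) with k | k
  · have : (a.1 : ℝ) + 1 ≤ i := by exact_mod_cast k
    linarith [le_abs_self (rl φ m - a.1)]
  · have : (i : ℝ) + 2 ≤ a.1 := by exact_mod_cast k
    linarith [neg_abs_le (rl φ m - a.1)]

theorem triI (n : ℕ) :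
    Tri (IF n) (fun b : Fin (2 * n + 2) => (b.1 : ℝ)) (Icc 0 (2 * n + 1)) := by
  classical
  refine ⟨IF_down n, ⟨0, by simp⟩, fun m hm => ⟨?_, ?_⟩, fun m hm m' hm' h => ?_, fun x hx => ?_⟩
  · exact (le_mean hm.1.1 hm.2 fun s _ => Nat.cast_nonneg _).1
  · exact (mean_le hm.1.1 hm.2 fun s _ => by
      have : s.1 ≤ 2 * n + 1 := by have := s.2; omega
      exact_mod_cast this).1
  · funext a
    rw [hat_eq hm, hat_eq hm', h]
  · obtain ⟨i, hi, a, b⟩ : ∃ i : ℕ, i ≤ 2 * n ∧ (i : ℝ) ≤ x ∧ x ≤ i + 1 := by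
      by_cases k : x < 2 * n + 1
      · refine ⟨⌊x⌋₊, ?_, Nat.floor_le hx.1, (Nat.lt_floor_add_one x).le⟩
        have : ⌊x⌋₊ < 2 * n + 1 := (Nat.floor_lt hx.1).2 (by exact_mod_cast k)
        omega
      · exact ⟨2 * n, le_rfl, by push_cast; linarith, by push_cast; exact hx.2⟩
    set p : Fin (2 * n + 2) := ⟨i, by omega⟩
    set q : Fin (2 * n + 2) := ⟨i + 1, by omega⟩
    refine ⟨Pi.single p (i + 1 - x) + Pi.single q (x - i), ⟨⟨fun s => add_nonneg ?_ ?_, i,
      fun s k => by_contra fun w => k ?_⟩, ?_⟩, ?_⟩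
    · rw [Pi.single_apply]; split_ifs <;> linarith
    · rw [Pi.single_apply]; split_ifs <;> linarith
    · rw [not_or] at w
      rw [Pi.add_apply, Pi.single_eq_of_ne fun e => w.1 (by rw [e]),
        Pi.single_eq_of_ne fun e => w.2 (by rw [e]), add_zero]
    · simp [Finset.sum_add_distrib]
    · simp only [rl, Pi.add_apply, Finset.sum_add_distrib, smul_eq_mul, add_mul,
        Pi.single_apply, ite_mul, zero_mul, Finset.sum_ite_eq', Finset.mem_univ, if_true, p, q]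
      push_cast
      ring

end Crest.Agent.N233.Pc

end
end

-- ▼ part N233/Pc/TriP

/-!
# Row 233 (helper14): ordered products of triangulations
-/

set_option autoImplicit false
open Set Topology Filter

noncomputable section

namespace Crest.Agent.N233.Pc

section prod

variable {S S' G G' : Type} [Fintype S] [Fintype S'] [NormedAddCommGroup G] [NormedSpace ℝ G]
  [NormedAddCommGroup G'] [NormedSpace ℝ G'] {Fc : Set S → Prop} {Fc' : Set S' → Prop}
  {h : S → ℕ} {h' : S' → ℕ}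

/-- the mass below the height `a` -/
def lo (h : S → ℕ) (μ : S → ℝ) (a : ℕ) : ℝ := ∑ t, if h t < a then μ t else 0

theorem lo_nonneg {μ : S → ℝ} (p : ∀ s, 0 ≤ μ s) (a : ℕ) : 0 ≤ lo h μ a :=
  Finset.sum_nonneg fun s _ => by split_ifs; exacts [p s, le_rfl]

theorem lo_le {μ : S → ℝ} (p : ∀ s, 0 ≤ μ s) (a : ℕ) : lo h μ a ≤ ∑ s, μ s :=
  Finset.sum_le_sum fun s _ => by split_ifs; exacts [le_rfl, p s]

theorem hi_le {μ : S → ℝ} (p : ∀ s, 0 ≤ μ s) {s : S} {a : ℕ} (k : h s < a) :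
    lo h μ (h s) + μ s ≤ lo h μ a := by
  classical
  have : μ s = ∑ t, if t = s then μ t else 0 := by simp
  rw [this, lo, ← Finset.sum_add_distrib]
  refine Finset.sum_le_sum fun t _ => ?_
  have := p t
  by_cases e : t = s
  · simp [e, k]
  · simp only [e, if_false, add_zero]
    split_ifs <;> first | rfl | omega | exact this

theorem tele_aux {μ : S → ℝ} (hi : InjOn h {s | μ s ≠ 0}) (g : ℝ → ℝ) (a : ℕ) :
    ∑ s, (if h s < a then g (lo h μ (h s) + μ s) - g (lo h μ (h s)) else 0) =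
      g (lo h μ a) - g 0 := by
  classical
  induction a with
  | zero => simp [lo]
  | succ a ih =>
    have sp : ∀ φ : S → ℝ, ∑ s, (if h s < a + 1 then φ s else 0) =
        ∑ s, (if h s < a then φ s else 0) + ∑ s, if h s = a then φ s else 0 := fun φ => by
      rw [← Finset.sum_add_distrib]
      exact Finset.sum_congr rfl fun s _ => by split_ifs <;> first | omega | simp
    have e : lo h μ (a + 1) = lo h μ a + ∑ s, if h s = a then μ s else 0 := sp μ
    rw [sp, ih, e]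
    by_cases k : ∃ s, μ s ≠ 0 ∧ h s = a
    · obtain ⟨s, k1, k2⟩ := k
      have z : ∀ t, t ≠ s → h t = a → μ t = 0 := fun t n e =>
        by_contra fun w => n (hi w k1 (e.trans k2.symm))
      rw [Finset.sum_eq_single s (fun t _ n => by split_ifs with e; exacts [by simp [z t n e], rfl])
        (by simp), Finset.sum_eq_single s (fun t _ n => by split_ifs with e; exacts [z t n e, rfl])
        (by simp), if_pos k2, if_pos k2, k2]
      ring
    · have z : ∀ t, h t = a → μ t = 0 := fun t e => by_contra fun w => k ⟨t, w, e⟩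
      rw [Finset.sum_eq_zero (fun t _ => by split_ifs with e; exacts [by simp [z t e], rfl]),
        Finset.sum_eq_zero (fun t _ => by split_ifs with e; exacts [z t e, rfl])]
      simp

theorem tele {μ : S → ℝ} (hi : InjOn h {s | μ s ≠ 0}) (g : ℝ → ℝ) :
    ∑ s, (g (lo h μ (h s) + μ s) - g (lo h μ (h s))) = g (∑ s, μ s) - g 0 := by
  have k : ∀ s, h s < Finset.univ.sup h + 1 := fun s =>
    Nat.lt_succ_of_le (Finset.le_sup (f := h) (Finset.mem_univ s))
  simpa only [k, if_true, lo] using tele_aux hi g (Finset.univ.sup h + 1)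

theorem min_box {a b c d : ℝ} (h1 : a ≤ b) (h2 : c ≤ d) :
    0 ≤ min b d - min a d - (min b c - min a c) ∧
      (min b d - min a d - (min b c - min a c) ≠ 0 → a < d ∧ c < b ∧ a < b ∧ c < d) := by
  simp only [min_def]
  split_ifs <;> refine ⟨by linarith, fun k => ⟨?_, ?_, ?_, ?_⟩⟩ <;> by_contra w <;>
    exact k (by linarith)

/-- the monotone coupling -/
theorem exists_coupling {μ : S → ℝ} {μ' : S' → ℝ} (m : μ ∈ Dl Fc) (m' : μ' ∈ Dl Fc')
    (hi : InjOn h {s | μ s ≠ 0}) (hi' : InjOn h' {s | μ' s ≠ 0}) :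
    ∃ ν ∈ Dl (PF Fc h Fc' h'), pu Prod.fst ν = μ ∧ pu Prod.snd ν = μ' := by
  classical
  set ν : S × S' → ℝ := fun a =>
    min (lo h μ (h a.1) + μ a.1) (lo h' μ' (h' a.2) + μ' a.2) -
      min (lo h μ (h a.1)) (lo h' μ' (h' a.2) + μ' a.2) -
      (min (lo h μ (h a.1) + μ a.1) (lo h' μ' (h' a.2)) -
        min (lo h μ (h a.1)) (lo h' μ' (h' a.2))) with hν
  have bx := fun a : S × S' => min_box (le_add_of_nonneg_right (a := lo h μ (h a.1)) (m.1.1 a.1))
    (le_add_of_nonneg_right (a := lo h' μ' (h' a.2)) (m'.1.1 a.2))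
  have e1 : pu Prod.fst ν = μ := funext fun s => by
    have := tele hi' fun x => min (lo h μ (h s) + μ s) x - min (lo h μ (h s)) x
    have u := (hi_le m.1.1 (Nat.lt_succ_self (h s))).trans (lo_le m.1.1 _)
    have l := lo_nonneg (h := h) m.1.1 (h s)
    have := m.1.1 s
    rw [m.2] at u
    rw [m'.2, min_eq_left u, min_eq_left (by linarith), min_eq_right (by linarith),
      min_eq_right l] at *
    rw [pu, Fintype.sum_prod_type, Finset.sum_eq_single s (fun t _ n => by simp [n]) (by simp)]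
    simp only [if_true, hν]
    linarith
  have e2 : pu Prod.snd ν = μ' := funext fun s => by
    have := tele hi fun x => min x (lo h' μ' (h' s) + μ' s) - min x (lo h' μ' (h' s))
    have u := (hi_le m'.1.1 (Nat.lt_succ_self (h' s))).trans (lo_le m'.1.1 _)
    have l := lo_nonneg (h := h') m'.1.1 (h' s)
    have := m'.1.1 s
    rw [m'.2] at u
    rw [m.2, min_eq_right u, min_eq_right (by linarith), min_eq_left (by linarith),
      min_eq_left l] at *
    rw [pu, Fintype.sum_prod_type_right, Finset.sum_eq_single s (fun t _ n => by simp [n]) (by simp)]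
    simp only [if_true, hν]
    rw [Finset.sum_congr rfl fun t _ => sub_sub_sub_comm _ _ _ _]
    linarith
  have p : ∀ a, 0 ≤ ν a := fun a => (bx a).1
  refine ⟨ν, ⟨⟨p, ?_, ?_, fun a ha b hb => ?_⟩, ?_⟩, e1, e2⟩
  · rw [← supp_pu _ p, e1]; exact m.1.2
  · rw [← supp_pu _ p, e2]; exact m'.1.2
  · have x := (bx a).2 ha
    have y := (bx b).2 hb
    by_contra w
    rcases (by omega : (h a.1 < h b.1 ∧ h' b.2 < h' a.2) ∨ (h b.1 < h a.1 ∧ h' a.2 < h' b.2)) with
      ⟨k, k'⟩ | ⟨k, k'⟩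
    · linarith [hi_le m.1.1 k, hi_le m'.1.1 k', x.2.1, y.1]
    · linarith [hi_le m.1.1 k, hi_le m'.1.1 k', x.1, y.2.1]
  · rw [← sum_pu Prod.fst, e1, m.2]

theorem PF.fst {ν : S × S' → ℝ} (m : ν ∈ Dl (PF Fc h Fc' h')) : pu Prod.fst ν ∈ Dl Fc :=
  pu_Dl m fun _ k => k.1

theorem PF.snd {ν : S × S' → ℝ} (m : ν ∈ Dl (PF Fc h Fc' h')) : pu Prod.snd ν ∈ Dl Fc' :=
  pu_Dl m fun _ k => k.2.1

theorem lo_pu (c : S' → S) (ν : S' → ℝ) (a : ℕ) :
    lo h (pu c ν) a = ∑ p, if h (c p) < a then ν p else 0 := by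
  simpa [lo] using sum_pu_smul c ν fun s => if h s < a then (1 : ℝ) else 0

theorem box_min {ν : S × S' → ℝ} (m : ν ∈ Dl (PF Fc h Fc' h')) (a b : ℕ) :
    (∑ p, if h p.1 < a ∧ h' p.2 < b then ν p else 0) =
      min (lo h (pu Prod.fst ν) a) (lo h' (pu Prod.snd ν) b) := by
  rw [lo_pu, lo_pu]
  have p := m.1.1
  have l1 : (∑ p, if h p.1 < a ∧ h' p.2 < b then ν p else 0) ≤ ∑ p, if h p.1 < a then ν p else 0 :=
    Finset.sum_le_sum fun q _ => by split_ifs <;> first | rfl | omega | exact p q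
  have l2 : (∑ p, if h p.1 < a ∧ h' p.2 < b then ν p else 0) ≤ ∑ p, if h' p.2 < b then ν p else 0 :=
    Finset.sum_le_sum fun q _ => by split_ifs <;> first | rfl | omega | exact p q
  by_cases k : ∀ q, ν q ≠ 0 → h q.1 < a → h' q.2 < b
  · refine le_antisymm (le_min l1 l2) (min_le_of_left_le (le_of_eq (Finset.sum_congr rfl fun q _ => ?_)))
    by_cases z : ν q = 0
    · simp [z]
    · have := k q z
      split_ifs <;> first | rfl | omega
  · push Not at k
    obtain ⟨r, k1, k2, k3⟩ := k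
    refine le_antisymm (le_min l1 l2) (min_le_of_right_le (le_of_eq (Finset.sum_congr rfl fun q _ => ?_)))
    by_cases z : ν q = 0
    · simp [z]
    · have := m.1.2.2.2 q z r k1
      split_ifs <;> first | rfl | omega

theorem coupling_eq {ν : S × S' → ℝ} (m : ν ∈ Dl (PF Fc h Fc' h'))
    (hh : ∀ A, Fc A → InjOn h A) (hh' : ∀ A, Fc' A → InjOn h' A) {s : S} {s' : S'}
    (k : pu Prod.fst ν s ≠ 0) (k' : pu Prod.snd ν s' ≠ 0) :
    ν (s, s') = min (lo h (pu Prod.fst ν) (h s + 1)) (lo h' (pu Prod.snd ν) (h' s' + 1)) -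
      min (lo h (pu Prod.fst ν) (h s)) (lo h' (pu Prod.snd ν) (h' s' + 1)) -
      (min (lo h (pu Prod.fst ν) (h s + 1)) (lo h' (pu Prod.snd ν) (h' s')) -
        min (lo h (pu Prod.fst ν) (h s)) (lo h' (pu Prod.snd ν) (h' s'))) := by
  simp only [← box_min m, ← Finset.sum_sub_distrib]
  rw [Finset.sum_eq_single (s, s') (fun q _ n => ?_) (by simp)]
  · simp
  · by_cases z : ν q = 0
    · simp [z]
    · have : ¬(h q.1 = h s ∧ h' q.2 = h' s') := fun e => n (Prod.ext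
        (hh _ m.1.2.1 ⟨q, z, rfl⟩ ((pu_ne _ m.1.1 _).1 k) e.1)
        (hh' _ m.1.2.2.1 ⟨q, z, rfl⟩ ((pu_ne _ m.1.1 _).1 k') e.2))
      split_ifs <;> first | omega | simp

theorem PF_down (d : ∀ A B : Set S, A ⊆ B → Fc B → Fc A) (d' : ∀ A B : Set S', A ⊆ B → Fc' B → Fc' A)
    (A B : Set (S × S')) (k : A ⊆ B) (f : PF Fc h Fc' h' B) : PF Fc h Fc' h' A :=
  ⟨d _ _ (image_mono k) f.1, d' _ _ (image_mono k) f.2.1, fun a ha b hb => f.2.2 a (k ha) b (k hb)⟩

omit [Fintype S] [Fintype S'] in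
theorem PF_injOn (hh : ∀ A, Fc A → InjOn h A) (hh' : ∀ A, Fc' A → InjOn h' A) (A : Set (S × S'))
    (f : PF Fc h Fc' h' A) : InjOn (fun a => h a.1 + h' a.2) A := fun a ha b hb e => by
  have := f.2.2 a ha b hb
  simp only at e
  exact Prod.ext (hh _ f.1 ⟨a, ha, rfl⟩ ⟨b, hb, rfl⟩ (by omega))
    (hh' _ f.2.1 ⟨a, ha, rfl⟩ ⟨b, hb, rfl⟩ (by omega))

theorem rl_prod (pos : S → G) (pos' : S' → G') (ν : S × S' → ℝ) :
    rl (fun a => (pos a.1, pos' a.2)) ν = (rl pos (pu Prod.fst ν), rl pos' (pu Prod.snd ν)) := by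
  rw [rl_pair, rl_pu, rl_pu]

/-- **ordered product** -/
theorem Tri.prod {pos : S → G} {pos' : S' → G'} {C : Set G} {C' : Set G'} (T : Tri Fc pos C)
    (T' : Tri Fc' pos' C') (hh : ∀ A, Fc A → InjOn h A) (hh' : ∀ A, Fc' A → InjOn h' A) :
    Tri (PF Fc h Fc' h') (fun a => (pos a.1, pos' a.2)) (C ×ˢ C') := by
  refine ⟨PF_down T.down T'.down, ⟨by simpa using T.emp, by simpa using T'.emp, by simp⟩,
    fun ν m => ?_, fun ν m ν' m' e => ?_, fun x hx => ?_⟩
  · rw [rl_prod]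
    exact ⟨T.rl_mem (PF.fst m), T'.rl_mem (PF.snd m)⟩
  · rw [rl_prod, rl_prod, Prod.mk.injEq] at e
    have e1 := T.bij.injOn (PF.fst m) (PF.fst m') e.1
    have e2 := T'.bij.injOn (PF.snd m) (PF.snd m') e.2
    funext ⟨s, s'⟩
    have z : ∀ {μ : S × S' → ℝ}, μ ∈ Dl (PF Fc h Fc' h') →
        (pu Prod.fst μ s = 0 ∨ pu Prod.snd μ s' = 0) → μ (s, s') = 0 := fun {μ} k w =>
      le_antisymm (w.elim (fun w => w ▸ le_pu Prod.fst k.1.1 (s, s'))
        fun w => w ▸ le_pu Prod.snd k.1.1 (s, s')) (k.1.1 _)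
    by_cases w : pu Prod.fst ν s = 0 ∨ pu Prod.snd ν s' = 0
    · rw [z m w, z m' (e1 ▸ e2 ▸ w)]
    · rw [not_or] at w
      rw [coupling_eq m hh hh' w.1 w.2, coupling_eq m' hh hh' (e1 ▸ w.1) (e2 ▸ w.2), e1, e2]
  · obtain ⟨ν, m, e1, e2⟩ := exists_coupling (T.iv_mem hx.1) (T'.iv_mem hx.2)
      (hh _ (T.iv_mem hx.1).1.2) (hh' _ (T'.iv_mem hx.2).1.2)
    exact ⟨ν, m, by rw [rl_prod, e1, e2, T.rl_iv hx.1, T'.rl_iv hx.2]⟩

end prod

theorem hK_injOn (A : Set (Fin 4)) (f : KF A) : InjOn hK A := by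
  obtain ⟨i, k⟩ := f
  refine InjOn.mono k fun a ha b hb => ?_
  simp only [mem_insert_iff, mem_singleton_iff] at ha hb
  clear k
  revert i a b
  decide

theorem hT_injOn (A : Set Tor) (f : TF A) : InjOn hT A := PF_injOn hK_injOn hK_injOn A f

theorem hI_injOn (n : ℕ) (A : Set (Fin (2 * n + 2))) (f : IF n A) : InjOn (hI n) A := by
  obtain ⟨i, k⟩ := f
  intro a ha b hb e
  have := k a ha
  have := k b hb
  simp only [hI] at e
  apply Fin.ext
  split_ifs at e <;> omega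

theorem triT : Tri TF pT (Metric.sphere (0 : R2) 1 ×ˢ Metric.sphere (0 : R2) 1) :=
  triK.prod triK hK_injOn hK_injOn

theorem tt : TT := triT

end Crest.Agent.N233.Pc

end
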