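import Crest.Agent.N233.Pc.PrS
import Crest.Agent.N233.Pc.Ch
import Crest.Agent.N233.Pc.Sum_Mg
import Crest.Agent.N233.Pc.TriP
import Crest.Agent.N233.Pc.GmB
import Crest.Agent.N233.Wu.Tw
import Crest.Agent.N255.Da.Graph

-- ▼ part N233/Pc/GmS
section

/-!
# Row 233 (helper25): the Seifert pieces as geometric pieces
-/

set_option autoImplicit false
open Set unitInterval Topology

noncomputable section

namespace Crest.Agent.N233.Pc

variable {n : ℕ} {ty : JS n → Bool}

namespace GS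

theorem cont_dS (j : JS n) : Continuous (dS n j) := by
  rcases j with j | _ | _
  · change Continuous fun u : R2 =>
      max |2 * (2 * (n : ℝ) + 2 - ‖u‖) - (4 * ((j : ℕ) : ℝ) + 3)| (nb (nz u)) - 1
    fun_prop
  · change Continuous fun u : R2 => ‖u‖ - 1
    fun_prop
  · change Continuous fun u : R2 => 1 - ‖u‖ / (2 * (n : ℝ) + 2)
    fun_prop

theorem cont_tS (j : JS n) : Continuous fun x => tS n ty x j := by
  have := cont_dS j
  unfold tS
  split_ifs <;> fun_prop

theorem abs_es (j : JS n) {s : ℝ} (h0 : 0 ≤ s) (h1 : s ≤ 1) : |eS n j * s| ≤ 1 / 4 := by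
  rw [abs_mul, abs_of_nonneg h0]
  have := (eS_spec j (n := n)).1
  nlinarith [abs_nonneg (eS n j)]

theorem eS_tS {j : JS n} (hj : ty j = true) {w : R2} (hw : ‖w‖ ≤ 2) (z : R2) :
    eS n j * tS n ty (σS n j w, z) j = ‖w‖ - 1 := by
  rw [tS, eS, dS_σS j hw, hj]
  simp only [if_true]
  split_ifs
  · rw [← mul_assoc, neg_mul, inv_mul_cancel₀ (by positivity)]; ring
  · ring

theorem dS_out_nonneg {x : R2 × R2} (h : 0 ≤ tS n ty x (.inr true)) : 0 ≤ dS n (.inr true) x.1 := by
  rw [tS, if_pos rfl] at h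
  have h3 := nonneg_of_mul_nonneg_right h (by positivity)
  split_ifs at h3
  · exact h3
  · exact h3.trans (min_le_left _ _)

theorem norm_le {x : R2 × R2} (h : 0 ≤ tS n ty x (.inr true)) : ‖x.1‖ ≤ 2 * n + 2 := by
  have h1 := Pr.dS_out (n := n) x.1
  have h2 := mul_nonneg (show (0 : ℝ) ≤ 4 * n + 4 by positivity) (dS_out_nonneg h)
  linarith

theorem dS_nonneg {x : R2 × R2} (h : ∀ j, 0 ≤ tS n ty x j) (hz : 1 < ‖x.2‖) (j : JS n) :
    0 ≤ dS n j x.1 := by
  by_cases e : j = .inr true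
  · subst e; exact dS_out_nonneg (h _)
  have h1 := h j
  rw [tS, if_neg e] at h1
  have h3 := nonneg_of_mul_nonneg_right h1 (by norm_num)
  split_ifs at h3
  · exact h3
  · rcases le_max_iff.1 h3 with h4 | h4
    · exact h4
    · linarith

theorem tS_nonneg {x : R2 × R2} (h : ∀ j, 0 ≤ dS n j x.1) (hz : 1 / 2 ≤ ‖x.2‖) (j : JS n) :
    0 ≤ tS n ty x j := by
  have := h j
  unfold tS
  split_ifs
  · positivity
  · exact mul_nonneg (by positivity) (le_min this (by linarith))
  · positivity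
  · exact mul_nonneg (by norm_num) (le_max_of_le_left this)

theorem norm_pt (j : JS n) (m : KK) (s : I) : ‖(1 + eS n j * s) • m.1‖ = 1 + eS n j * s :=
  norm_smul_unit (norm_KK m) (by linarith [(abs_le.1 (abs_es j s.2.1 s.2.2)).1])

theorem norm_pt_le (j : JS n) (m : KK) (s : I) : ‖(1 + eS n j * s) • m.1‖ ≤ 2 := by
  rw [norm_pt]; linarith [(abs_le.1 (abs_es j s.2.1 s.2.2)).2]

theorem tS_pt {j : JS n} (hj : ty j = true) (m : KK) (z : R2) (s : I) :
    tS n ty (σS n j ((1 + eS n j * s) • m.1), z) j = s :=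
  mul_left_cancel₀ (eS_spec j).2.1 (by rw [eS_tS hj (norm_pt_le j m s), norm_pt]; ring)

theorem mem_pt (h : ty (.inr true) = false → ∀ j, ty j = false) {j : JS n} (hj : ty j = true)
    (m : KK) (z : R2) (s : I) (j' : JS n) :
    0 ≤ tS n ty (σS n j ((1 + eS n j * s) • m.1), z) j' := by
  by_cases e : j = j'
  · subst e; rw [tS_pt hj]; exact s.2.1
  · exact zero_le_one.trans (tS_sep h e _ (by rw [tS_pt hj]; exact s.2.2)).le

/-- the collar of a product wall -/
def κP (h : ty (.inr true) = false → ∀ j, ty j = false) {j : JS n} (hj : ty j = true) :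
    C(VW × I, ES n ty) :=
  ⟨fun y => ⟨(σS n j ((1 + eS n j * y.2) • y.1.1.1), y.1.2), mem_pt h hj _ _ _⟩,
    Continuous.subtype_mk (((cont_σS j).comp (by fun_prop)).prodMk (by fun_prop)) _⟩

end GS

open GS

/-- the product walls -/
def pdS (n : ℕ) (ty : JS n → Bool) (h : ty (.inr true) = false → ∀ j, ty j = false) (j : JS n)
    (hj : ty j = true) : WD (fun x : ES n ty => tS n ty x.1 j) (fun x => ht x.1.2)
      (fun x => (nz x.1.1, 2 * n + 2 - ‖x.1.1‖, nz x.1.2)) (τS n ty j) where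
  κ := κP h hj
  emb := by
    refine emb_of_amb (κP h hj).continuous
      (i := fun y : VW × I => (((y.1.1.1, y.1.2), y.2.1) : (R2 × R2) × ℝ))
      ((IsEmbedding.subtypeVal.prodMap IsEmbedding.id).prodMap IsEmbedding.subtypeVal)
      (g := fun x : ES n ty => ((nz (σS' n j x.1.1), x.1.2), tS n ty x.1 j)) (U := univ)
      (fun _ => trivial) (Continuous.continuousOn ?_) fun y => ?_
    · have := cont_σS' j
      exact Continuous.prodMk (by fun_prop) ((cont_tS j).comp continuous_subtype_val)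
    · change ((nz (σS' n j (σS n j _)), y.1.2), tS n ty (σS n j _, _) j) = _
      rw [tS_pt hj, σS_li j (norm_pt_le j _ _), nz_smul (norm_KK _)
        (by linarith [(abs_le.1 (abs_es j y.2.2.1 y.2.2.2)).1])]
  tκ v s := tS_pt hj _ _ _
  sur x h1 := by
    have hri : σS n j (σS' n j x.1.1) = x.1.1 :=
      σS_ri fun hj' => by linarith [(Pr.tS_hole (ty := ty) hj' x.1).1]
    have hω : ‖σS' n j x.1.1‖ ≤ 2 := by
      by_cases e : j = .inr true
      · subst e
        have h3 := dS_out_nonneg (x.2 (.inr true))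
        simp only [dS, σS'] at h3 ⊢
        rw [norm_smul, norm_inv, Real.norm_eq_abs, abs_of_nonneg (by positivity), ← div_eq_inv_mul]
        linarith
      · linarith [norm_σS' e x.1.1, (Pr.tS_hole (ty := ty) e x.1).1]
    have e1 := GS.eS_tS hj hω x.1.2
    rw [hri] at e1
    have h2 : 1 / 2 ≤ ‖σS' n j x.1.1‖ := by
      linarith [(abs_le.1 (abs_es j (x.2 j) h1.le)).1]
    refine ⟨(kk _ (norm_nz h2), x.1.2), ⟨_, x.2 j, h1.le⟩, Subtype.ext (Prod.ext ?_ rfl)⟩
    change σS n j ((1 + eS n j * tS n ty x.1 j) • nz (σS' n j x.1.1)) = x.1.1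
    rw [show 1 + eS n j * tS n ty x.1 j = ‖σS' n j x.1.1‖ by linarith, smul_nz h2, hri]
  rκ v := rfl
  πκ v _ := by
    have := π_σS j (norm_KK v.1)
    change (nz (σS n j ((1 + eS n j * (0 : ℝ)) • v.1.1)),
      2 * (n : ℝ) + 2 - ‖σS n j ((1 + eS n j * (0 : ℝ)) • v.1.1)‖, nz v.2) = _
    rw [mul_zero, add_zero, one_smul]
    simp only [τS, hj, if_true, ← this]

/-- all walls -/
def wdS (n : ℕ) (ty : JS n → Bool) (h : ty (.inr true) = false → ∀ j, ty j = false) (j : JS n) :
    WD (fun x : ES n ty => tS n ty x.1 j) (fun x => ht x.1.2)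
      (fun x => (nz x.1.1, 2 * n + 2 - ‖x.1.1‖, nz x.1.2)) (τS n ty j) :=
  if hj : ty j = true then pdS n ty h j hj else prS n ty h j (by simpa using hj)

/-- **the Seifert pieces** -/
def gmS (n : ℕ) (ty : JS n → Bool) (h : ty (.inr true) = false → ∀ j, ty j = false) :
    Gm (CS n) (τS n ty) where
  E := ES n ty
  t j := ⟨fun x => tS n ty x.1 j, (cont_tS j).comp continuous_subtype_val⟩
  t_nonneg j x := x.2 j
  dis j j' x h1 h2 := by
    by_contra e
    exact lt_asymm h2 (tS_sep h e x.1 h1.le)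
  κ j := (wdS n ty h j).κ
  emb j := (wdS n ty h j).emb
  tκ j := (wdS n ty h j).tκ
  κ_sur j := (wdS n ty h j).sur
  man x hx := LE.of_pos (t := tS n ty) cont_tS hx (le_RR _)
  r := ⟨fun x => ht x.1.2, by fun_prop⟩
  r_nonneg x := ht_nonneg _
  π := ⟨fun x => (nz x.1.1, 2 * n + 2 - ‖x.1.1‖, nz x.1.2), by fun_prop⟩
  π_mem x hx := by
    have hz := ht_pos.1 hx
    have hd := dS_nonneg x.2 hz
    have h1 : 0 ≤ ‖x.1.1‖ - 1 := hd (.inr false)
    refine ⟨norm_nz (by linarith), ?_, ?_, norm_nz (by linarith), fun j => ?_⟩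
    · exact sub_nonneg.2 (norm_le (x.2 _))
    · change 2 * (n : ℝ) + 2 - ‖x.1.1‖ ≤ _
      linarith
    · exact sub_nonneg.1 (hd (.inl j))
  inj x x' h1 h2 hx := by
    have hd : 0 ≤ ‖x.1.1‖ - 1 := dS_nonneg x.2 (ht_pos.1 hx) (.inr false)
    have e1 : nz x.1.1 = nz x'.1.1 := congrArg Prod.fst h2
    have e2 : 2 * (n : ℝ) + 2 - ‖x.1.1‖ = 2 * n + 2 - ‖x'.1.1‖ := congrArg (·.2.1) h2
    have e3 : nz x.1.2 = nz x'.1.2 := congrArg (·.2.2) h2
    exact Subtype.ext (Prod.ext (eq_of_nz (by linarith) (by linarith) e1) (eq_of_ht hx h1 e3))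
  sur := by
    rintro ⟨m, ρ, l⟩ ⟨h1, h2, h3, h4, h5⟩ a ha
    simp only at h1 h2 h3 h4 h5
    have e1 : ‖(2 * n + 2 - ρ) • m‖ = 2 * n + 2 - ρ := norm_smul_unit h1 (by linarith)
    have e2 : nz ((2 * n + 2 - ρ) • m) = m := nz_smul h1 (by linarith)
    have e3 : ‖(a + 1) • l‖ = a + 1 := norm_smul_unit h4 (by linarith)
    refine ⟨⟨((2 * n + 2 - ρ) • m, (a + 1) • l), tS_nonneg (fun j => ?_) (by rw [e3]; linarith)⟩,
      ht_smul' h4 ha.le, ?_⟩
    · rcases j with j | _ | _
      · simp only [dS, e1, e2, sub_sub_cancel]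
        exact sub_nonneg.2 (h5 j)
      · simp only [dS, e1]
        linarith
      · simp only [dS, e1]
        rw [sub_nonneg, div_le_one (by positivity)]
        linarith
    · change (nz ((2 * n + 2 - ρ) • m), 2 * (n : ℝ) + 2 - ‖(2 * n + 2 - ρ) • m‖,
        nz ((a + 1) • l)) = _
      rw [e1, e2, nz_smul h4 (by linarith), sub_sub_cancel]
  cpt R := by
    have hc : IsClosed {x : R2 × R2 | ∀ j, 0 ≤ tS n ty x j} := by
      rw [Set.ofPred_forall]
      exact isClosed_iInter fun j => isClosed_le continuous_const (cont_tS j)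
    refine (hc.isClosedEmbedding_subtypeVal.isCompact_preimage
      ((isCompact_closedBall (0 : R2) (2 * n + 2)).prod
        (isCompact_closedBall (0 : R2) (R + 1)))).of_isClosed_subset
      (isClosed_le (by fun_prop) continuous_const) fun x hx => ⟨?_, ?_⟩
    · exact mem_closedBall_zero_iff.2 (norm_le (x.2 _))
    · exact mem_closedBall_zero_iff.2 (ht_le hx)
  rκ j := (wdS n ty h j).rκ
  πκ j := (wdS n ty h j).πκ

end Crest.Agent.N233.Pc

end
end

-- ▼ part N233/Pc/In0

/-!
# Row 233 (helper68): the bipartite filling, data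

Even vertices of the tree omit the type `0`, odd ones the type `1`; on the loops of type `2` the central
hole is chosen.
-/

set_option autoImplicit false
open Set

noncomputable section

namespace Crest.Agent.N233.Pc.In

open Crest.Agent.N255

/-- the free group -/
abbrev F3 : Type := FreeGroup (Fin 3)

/-- the height -/
def χ : F3 →* Multiplicative ℤ := FreeGroup.lift ![.ofAdd 1, .ofAdd 1, 1]

/-- the even elements -/
abbrev F2 : Subgroup F3 := Wu.Gn χ 2

/-- vertices of one piece -/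
abbrev V3 : Type := Fin 4 × Fin 4 × Fin 4

/-- pieces: parity of the vertex; `none` Borromean, `some i` Seifert of type `i` -/
abbrev Nd : Type := Bool × Option (Fin 3)

/-- walls: `(ε, i, false)` between `B` and `S i` at parity `ε`; `(ε, i, true)` along the edge from `v` of
parity `ε` to `v * of i` -/
abbrev Ed : Type := Bool × Fin 3 × Bool

/-- the omitted type -/
def om (ε : Bool) : Fin 3 := if ε then 1 else 0

/-- parity at the end of the edge -/
def nx (ε : Bool) (i : Fin 3) : Bool := if i = 2 then ε else !ε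

/-- is the fibre killed -/
def ty (ε : Bool) (i : Fin 3) (j : JS 1) : Bool := decide (i ≠ om ε ∧ (i = 2 → j ≠ .inl 0))

theorem ty_ok (ε : Bool) (i : Fin 3) : ty ε i (.inr true) = false → ∀ j, ty ε i j = false := by
  revert ε i; decide

/-- walls of a Seifert piece: outer, central, side -/
def e3 : Fin 3 ≃ JS 1 where
  toFun := ![.inr true, .inr false, .inl 0]
  invFun := Sum.elim (fun _ => 2) fun b => if b then 0 else 1
  left_inv := by decide
  right_inv := by decide

/-- the two sides of a wall -/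
def eJ : Ed × Bool ≃ Σ _ : Nd, Fin 3 where
  toFun
    | ((ε, i, false), true) => ⟨(ε, none), i - om ε⟩
    | ((ε, i, false), false) => ⟨(ε, some i), 0⟩
    | ((ε, i, true), true) => ⟨(ε, some i), 2⟩
    | ((ε, i, true), false) => ⟨(nx ε i, some i), 1⟩
  invFun
    | ⟨(ε, none), k⟩ => ((ε, k + om ε, false), true)
    | ⟨(ε, some i), k⟩ => if k = 0 then ((ε, i, false), false) else
        if k = 2 then ((ε, i, true), true) else ((nx ε i, i, true), false)
  left_inv := by decide
  right_inv := by decide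

/-- the node of a side of a wall -/
def wn (j : Ed × Bool) : Nd := (eJ j).1

/-- faces -/
def Fn : Nd → Set V3 → Prop
  | (_, none) => FB
  | (_, some _) => FS 1

/-- wall tori before reflection -/
def w0 : Nd → Fin 3 → Tor → V3
  | (_, none) => wB
  | (ε, some i) => fun k => wS 1 (ty ε i) (e3 k)

/-- reflect the surviving circle -/
def ra : Nd → Fin 3 → Bool
  | (_, none), _ => false
  | (ε, some i), k => decide (k = 2) && !ty ε i (.inl 0)

/-- reflect the killed circle -/
def rb : Nd → Fin 3 → Bool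
  | (_, none), _ => false
  | (ε, some i), k => decide (k = 2) && ty ε i (.inl 0)

/-- wall tori -/
def w1 (n : Nd) (k : Fin 3) (t : Tor) : V3 := w0 n k (rT (ra n k) (rb n k) t)

/-- all vertices -/
abbrev SV : Type := Σ _ : Nd, V3

/-- all faces -/
abbrev Fc : Set SV → Prop := SF Fn

/-- all wall tori -/
def wl (j : Ed × Bool) : Tor → SV := wσ w1 (eJ j)

/-- the triangulations -/
structure TM : Prop where
  tB : Tri FB pB CB
  tS : Tri (FS 1) (pS 1) (CS 1)
  hB : ∀ j, ∀ μ ∈ Dl TF, pu (wB j) μ ∈ Dl FB ∧ rl pB (pu (wB j) μ) = τB j (rl pT μ)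
  hS : ∀ ty j, ∀ μ ∈ Dl TF,
    pu (wS 1 ty j) μ ∈ Dl (FS 1) ∧ rl (pS 1) (pu (wS 1 ty j) μ) = τS 1 ty j (rl pT μ)

/-- the pieces before reflection -/
def P0 (H : TM) : ∀ n : Nd, Bk (Fn n) (w0 n)
  | (_, none) => gmB.bk tt H.tB H.hB
  | (ε, some i) => ((gmS 1 (ty ε i) (ty_ok ε i)).bk tt H.tS (H.hS _)).reindex e3

/-- the pieces -/
def P1 (H : TM) (n : Nd) : Bk (Fn n) (w1 n) := (P0 H n).refl' tt (ra n) (rb n)

/-- **the disconnected piece** -/
def PP (H : TM) : Bk Fc wl := (Bk.sigma (P1 H)).reindex eJ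

/-- the coset representative -/
def tp (ε : Bool) : F3 := if ε then .of 0 else 1

theorem χ_of (i : Fin 3) : (χ (.of i)).toAdd = if i = 2 then 0 else 1 := by
  fin_cases i <;> simp [χ]

theorem χ_tp (ε : Bool) : (χ (tp ε)).toAdd = if ε then 1 else 0 := by
  cases ε <;> simp [tp, χ_of]

theorem vg_mem (ε : Bool) (i : Fin 3) : tp ε * .of i * (tp (nx ε i))⁻¹ ∈ F2 := by
  rw [Wu.mem_Gn, χ.map_mul, χ.map_mul, χ.map_inv, toAdd_mul, toAdd_mul, toAdd_inv, χ_tp, χ_tp, χ_of]
  revert ε i; decide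

/-- voltages -/
def g : Ed × Bool → F2
  | ((ε, i, true), false) => ⟨tp ε * .of i * (tp (nx ε i))⁻¹, vg_mem ε i⟩
  | _ => 1

/-- the vertex of the tree under the copy `f` of the node `n` -/
def vt (f : F2) (n : Nd) : F3 := f.1 * tp n.1

/-- codes of the vertices of the three-torus -/
def cT (x y z : Fin 4) : ℕ := 48 + 16 * x.1 + 4 * y.1 + z.1

/-- codes of the vertices of `B`: the coordinate `k` has type `k + om ε` -/
def cB (ε : Bool) (a : V3) : ℕ := if ε then cT a.2.2 a.1 a.2.1 else cT a.1 a.2.1 a.2.2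

/-- codes of the vertices `(m, r, l)` of `S i` -/
def cP (i : Fin 3) (a : V3) : ℕ :=
  if a.2.1 = 0 then ![cT a.1 (ea a.2.2) (eb a.2.2), cT (eb a.2.2) a.1 (ea a.2.2),
    cT (ea a.2.2) (eb a.2.2) a.1] i
  else if a.2.1 = 3 then 112 + 32 * i.1 + 4 * a.1.1 + a.2.2.1
  else if 2 ≤ a.1.1 then 16 * i.1 + 8 * (a.2.1.1 - 1) + 4 * (a.1.1 - 2) + a.2.2.1
  else 128 + 32 * i.1 + 4 * (-a.2.2).1 + (if a.1 = 0 then a.2.1.1 - 1 else 4 - a.2.1.1)

/-- codes -/
def cd : Nd → V3 → ℕ
  | (ε, none), a => cB ε a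
  | (_, some i), a => cP i a

/-- the vertex with a given code -/
def dec (c : ℕ) : Da.VV :=
  if h : c < 112 then .inl ⟨c, h⟩ else
    .inr ((Fin.ofNat 3 ((c - 112) / 32), decide ((c - 112) / 16 % 2 = 1)), Fin.ofNat 16 (c - 112))

/-- labels in the chamber -/
def lab (a : SV) : Da.VV := dec (cd a.1 a.2)

/-- vertices of the cover -/
abbrev St : Type := Pt.St (Fin 3) (Fin 112) (Fin 16)

/-- the copies -/
def cp (f : F2) (a : SV) : St := Pt.cp (vt f a.1) (lab a)

end Crest.Agent.N233.Pc.In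

end
private theorem rz_b860b6fed6 : type_of% @_root_.Crest.Agent.N233.Pc.In.g.eq_1 := @_root_.Crest.Agent.N233.Pc.In.g.eq_1 -- L145
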