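import Crest.Agent.N233.Pc.Defs

-- ▼ part N233/Pc/Pr
section

/-!
# Row 233 (helper68): collar data of one wall, prism walls
-/

set_option autoImplicit false
open Set unitInterval Topology

noncomputable section

namespace Crest.Agent.N233.Pc

/-- the collar of one wall -/
structure WD {E G : Type} [TopologicalSpace E] (t r : E → ℝ) (π : E → G) (τ : R2 × R2 → G) where
  κ : C(VW × I, E)
  emb : IsEmbedding κ
  tκ : ∀ v s, t (κ (v, s)) = s
  sur : ∀ x, t x < 1 → ∃ v s, κ (v, s) = x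
  rκ : ∀ v, r (κ (v, 0)) = ht v.2
  πκ : ∀ v, 1 < ‖v.2‖ → π (κ (v, 0)) = τ (v.1.1, nz v.2)

namespace Pr

/-- horizontal part of the prism -/
def pw (w : R2) (a : ℝ) : R2 := ((1 + a) / max 1 ‖w‖) • w

/-- vertical part of the prism -/
def pr (w : R2) (a : ℝ) : ℝ := max 1 ‖w‖ - a

/-- the level -/
def ta (ω : R2) (ρ : ℝ) : ℝ := max (‖ω‖ - 1) (1 - ρ)

/-- the foot point -/
def pi' (ω : R2) (ρ : ℝ) : R2 := ((ρ + ta ω ρ) / max (1 + ta ω ρ) (1 / 2)) • ω

theorem norm_pw (w : R2) {a : ℝ} (ha : |a| ≤ 1 / 4) : ‖pw w a‖ = (1 + a) * ‖w‖ / max 1 ‖w‖ := by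
  have h := abs_le.1 ha
  have hM : 0 < max 1 ‖w‖ := lt_max_of_lt_left one_pos
  rw [pw, norm_smul, Real.norm_eq_abs, abs_of_nonneg (div_nonneg (by linarith) hM.le)]
  ring

theorem ta_p (w : R2) {a : ℝ} (ha : |a| ≤ 1 / 4) : ta (pw w a) (pr w a) = a := by
  have h := abs_le.1 ha
  rw [ta, norm_pw w ha, pr]
  rcases le_total 1 ‖w‖ with h1 | h1
  · rw [max_eq_right h1, mul_div_assoc, div_self (by linarith), max_eq_left (by linarith)]
    ring
  · rw [max_eq_left h1, div_one, max_eq_right (by nlinarith [norm_nonneg w])]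
    ring

theorem pi_p (w : R2) {a : ℝ} (ha : |a| ≤ 1 / 4) : pi' (pw w a) (pr w a) = w := by
  have h := abs_le.1 ha
  have hM : 0 < max 1 ‖w‖ := lt_max_of_lt_left one_pos
  rw [pi', ta_p w ha, max_eq_left (by linarith), pw, pr, smul_smul]
  have : (max 1 ‖w‖ - a + a) / (1 + a) * ((1 + a) / max 1 ‖w‖) = 1 := by
    have : 1 + a ≠ 0 := by linarith
    field_simp
    ring
  rw [this, one_smul]

theorem max_pi {ω : R2} {ρ : ℝ} (ha : |ta ω ρ| ≤ 1 / 4) : max 1 ‖pi' ω ρ‖ = ρ + ta ω ρ := by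
  have h := abs_le.1 ha
  have h2 : 1 - ρ ≤ ta ω ρ := le_max_right _ _
  have h3 : ‖ω‖ - 1 ≤ ta ω ρ := le_max_left _ _
  have h4 : 0 < 1 + ta ω ρ := by linarith
  rw [pi', max_eq_left (by linarith : 1 / 2 ≤ 1 + ta ω ρ), norm_smul, Real.norm_eq_abs,
    abs_of_nonneg (div_nonneg (by linarith) h4.le)]
  rcases le_total (‖ω‖ - 1) (1 - ρ) with h1 | h1
  · have e : ta ω ρ = 1 - ρ := max_eq_right h1
    have e' : ρ + ta ω ρ = 1 := by linarith
    rw [e', max_eq_left]
    rw [div_mul_eq_mul_div, div_le_one h4]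
    linarith
  · have e : ta ω ρ = ‖ω‖ - 1 := max_eq_left h1
    have e' : ‖ω‖ = 1 + ta ω ρ := by linarith
    rw [e', div_mul_cancel₀ _ h4.ne', max_eq_right (by linarith)]

theorem pw_pi {ω : R2} {ρ : ℝ} (ha : |ta ω ρ| ≤ 1 / 4) : pw (pi' ω ρ) (ta ω ρ) = ω := by
  have h := abs_le.1 ha
  have h2 : 1 - ρ ≤ ta ω ρ := le_max_right _ _
  rw [pw, max_pi ha, pi', max_eq_left (by linarith : 1 / 2 ≤ 1 + ta ω ρ), smul_smul]
  have : (1 + ta ω ρ) / (ρ + ta ω ρ) * ((ρ + ta ω ρ) / (1 + ta ω ρ)) = 1 := by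
    have : 1 + ta ω ρ ≠ 0 := by linarith
    have : ρ + ta ω ρ ≠ 0 := by linarith
    field_simp
  rw [this, one_smul]

theorem pr_pi {ω : R2} {ρ : ℝ} (ha : |ta ω ρ| ≤ 1 / 4) : pr (pi' ω ρ) (ta ω ρ) = ρ := by
  rw [pr, max_pi ha]; ring

theorem cont_pw : Continuous fun x : R2 × ℝ => pw x.1 x.2 := by
  unfold pw
  refine Continuous.smul (Continuous.div (continuous_const.add continuous_snd)
    (continuous_const.max continuous_fst.norm) fun x => ?_) continuous_fst
  exact (lt_max_of_lt_left one_pos).ne'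

theorem cont_pr : Continuous fun x : R2 × ℝ => pr x.1 x.2 := by unfold pr; fun_prop

theorem cont_ta : Continuous fun x : R2 × ℝ => ta x.1 x.2 := by unfold ta; fun_prop

theorem cont_pi : Continuous fun x : R2 × ℝ => pi' x.1 x.2 := by
  unfold pi'
  refine Continuous.smul (Continuous.div (continuous_snd.add cont_ta)
    ((continuous_const.add cont_ta).max continuous_const) fun x => ?_) continuous_fst
  exact (lt_max_of_lt_right (by norm_num)).ne'

theorem nz_of {z : R2} (h : 1 / 2 ≤ ‖z‖) : nz z = ‖z‖⁻¹ • z := by rw [nz, max_eq_left h]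

theorem norm_nz' {z : R2} (h : 1 / 2 ≤ ‖z‖) : ‖nz z‖ = 1 := by
  rw [nz_of h, norm_smul, norm_inv, norm_norm, inv_mul_cancel₀ (by linarith)]

theorem smul_nz' {z : R2} (h : 1 / 2 ≤ ‖z‖) : ‖z‖ • nz z = z := by
  rw [nz_of h, smul_smul, mul_inv_cancel₀ (by linarith), one_smul]

theorem nz_smul' {l : R2} (hl : ‖l‖ = 1) {a : ℝ} (h : 1 / 2 ≤ a) : nz (a • l) = l ∧ ‖a • l‖ = a := by
  have e : ‖a • l‖ = a := by rw [norm_smul, hl, mul_one, Real.norm_eq_abs, abs_of_nonneg (by linarith)]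
  refine ⟨?_, e⟩
  rw [nz_of (by linarith), e, smul_smul, inv_mul_cancel₀ (by linarith), one_smul]

theorem cont_nz' : Continuous nz := by
  unfold nz
  refine Continuous.smul (Continuous.inv₀ (continuous_norm.max continuous_const) fun x => ?_)
    continuous_id
  exact (lt_max_of_lt_right (by norm_num)).ne'

theorem nK (l : KK) : ‖l.1‖ = 1 := by simp

theorem abs_es {e : ℝ} (he : |e| ≤ 1 / 4) {s : ℝ} (h0 : 0 ≤ s) (h1 : s ≤ 1) : |e * s| ≤ 1 / 4 := by
  rw [abs_mul, abs_of_nonneg h0]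
  nlinarith [abs_nonneg e]

end Pr

open Pr in
/-- a prism wall from a chart `Φ (surviving circle, cross section, height)` -/
def WD.prism {A G : Type} [TopologicalSpace A] (P : A → Prop) (t r : A → ℝ) (π : A → G)
    (τ : R2 × R2 → G) (e c : ℝ) (Φ : KK × R2 × ℝ → A) (Ψ : A → R2 × R2 × ℝ) (hΦ : Continuous Φ)
    (hΨ : Continuous Ψ) (he : |e| ≤ 1 / 4) (e0 : e ≠ 0) (hc : 0 < c) (hc1 : c ≤ 1)
    (h1 : ∀ l ω ρ s, 0 ≤ s → s ≤ 1 → ta ω ρ = e * s →
      Ψ (Φ (l, ω, ρ)) = (l.1, ω, ρ) ∧ P (Φ (l, ω, ρ)) ∧ t (Φ (l, ω, ρ)) = s)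
    (h2 : ∀ x, P x → t x < 1 → ∃ l ω ρ s, 0 ≤ s ∧ s ≤ 1 ∧ ta ω ρ = e * s ∧ Φ (l, ω, ρ) = x)
    (hr : ∀ l ω ρ, 1 ≤ ρ → r (Φ (l, ω, ρ)) = max 0 (c * ρ - 1))
    (hπ : ∀ l m ρ, ‖m‖ = 1 → 1 < c * ρ → π (Φ (l, m, ρ)) = τ (l.1, m)) :
    WD (fun x : {x // P x} => t x.1) (fun x => r x.1) (fun x => π x.1) τ :=
  have hq : ∀ (v : VW) (s : I), ta (pw (c⁻¹ • v.2) (e * s)) (pr (c⁻¹ • v.2) (e * s)) = e * s :=
    fun _ s => ta_p _ (abs_es he s.2.1 s.2.2)
  have hk : Continuous fun y : VW × I =>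
      Φ (y.1.1, pw (c⁻¹ • y.1.2) (e * y.2), pr (c⁻¹ • y.1.2) (e * y.2)) := by
    have h : Continuous fun y : VW × I => (c⁻¹ • y.1.2, e * (y.2 : ℝ)) := by fun_prop
    exact hΦ.comp ((continuous_fst.comp continuous_fst).prodMk
      ((cont_pw.comp h).prodMk (cont_pr.comp h)))
  { κ := ⟨fun y => ⟨Φ (y.1.1, pw (c⁻¹ • y.1.2) (e * y.2), pr (c⁻¹ • y.1.2) (e * y.2)),
      (h1 _ _ _ _ y.2.2.1 y.2.2.2 (hq y.1 y.2)).2.1⟩, hk.subtype_mk _⟩
    emb := by
      have hg : Continuous fun x : {x // P x} => ((((Ψ x.1).1, c • pi' (Ψ x.1).2.1 (Ψ x.1).2.2),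
          ta (Ψ x.1).2.1 (Ψ x.1).2.2 / e) : (R2 × R2) × ℝ) := by
        have h : Continuous fun x : {x // P x} => Ψ x.1 := hΨ.comp continuous_subtype_val
        exact (h.fst.prodMk ((cont_pi.comp h.snd).const_smul c)).prodMk
          ((cont_ta.comp h.snd).div_const e)
      refine IsEmbedding.of_comp (hk.subtype_mk _) hg ?_
      have : IsEmbedding fun y : VW × I => (((y.1.1.1, y.1.2), (y.2 : ℝ)) : (R2 × R2) × ℝ) :=
        (IsEmbedding.subtypeVal.prodMap IsEmbedding.id).prodMap IsEmbedding.subtypeVal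
      convert this using 1
      funext y
      simp only [Function.comp, ContinuousMap.coe_mk, (h1 _ _ _ _ y.2.2.1 y.2.2.2 (hq y.1 y.2)).1, hq,
        pi_p _ (abs_es he y.2.2.1 y.2.2.2), smul_smul, mul_inv_cancel₀ hc.ne', one_smul,
        mul_div_cancel_left₀ _ e0]
    tκ := fun v s => (h1 _ _ _ _ s.2.1 s.2.2 (hq v s)).2.2
    sur := fun x hx => by
      obtain ⟨l, ω, ρ, s, s0, s1, hs, e1⟩ := h2 x.1 x.2 hx
      have ha : |ta ω ρ| ≤ 1 / 4 := hs ▸ abs_es he s0 s1
      refine ⟨(l, c • pi' ω ρ), ⟨s, s0, s1⟩, Subtype.ext ?_⟩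
      change Φ (l, pw (c⁻¹ • c • pi' ω ρ) (e * s), pr (c⁻¹ • c • pi' ω ρ) (e * s)) = x.1
      rw [smul_smul, inv_mul_cancel₀ hc.ne', one_smul, ← hs, pw_pi ha, pr_pi ha, e1]
    rκ := fun v => by
      change r (Φ (v.1, pw (c⁻¹ • v.2) (e * 0), pr (c⁻¹ • v.2) (e * 0))) = ht v.2
      rw [mul_zero, hr _ _ _ (by rw [pr, sub_zero]; exact le_max_left _ _), pr, sub_zero, ht,
        norm_smul, norm_inv, Real.norm_eq_abs, abs_of_pos hc, mul_max_of_nonneg _ _ hc.le, mul_one,
        ← mul_assoc, mul_inv_cancel₀ hc.ne', one_mul]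
      rcases le_total c ‖v.2‖ with h | h
      · rw [max_eq_right h]
      · rw [max_eq_left h, max_eq_left (by linarith), max_eq_left (by linarith)]
    πκ := fun v hv => by
      change π (Φ (v.1, pw (c⁻¹ • v.2) (e * 0), pr (c⁻¹ • v.2) (e * 0))) = _
      have e1 : ‖c⁻¹ • v.2‖ = c⁻¹ * ‖v.2‖ := by
        rw [norm_smul, norm_inv, Real.norm_eq_abs, abs_of_pos hc]
      have e2 : 1 ≤ c⁻¹ * ‖v.2‖ := by
        rw [← div_eq_inv_mul, one_le_div hc]; linarith
      have e3 : pw (c⁻¹ • v.2) (e * 0) = nz v.2 := by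
        rw [pw, e1, max_eq_right e2, nz_of (by linarith), smul_smul]
        congr 1
        have : ‖v.2‖ ≠ 0 := by linarith
        field_simp
        ring
      rw [e3, hπ _ _ _ (norm_nz' (by linarith))]
      rw [pr, e1, max_eq_right e2, mul_zero, sub_zero, ← mul_assoc, mul_inv_cancel₀ hc.ne', one_mul]
      exact hv }

end Crest.Agent.N233.Pc

end
end

-- ▼ part N233/Pc/PrS

/-!
# Row 233 (helper68): the prism walls of the Seifert pieces
-/

set_option autoImplicit false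
open Set unitInterval Topology

noncomputable section

namespace Crest.Agent.N233.Pc

namespace Pr

theorem norm_R2 (w : R2) : ‖w‖ = max |w.1| |w.2| := by
  rw [Prod.norm_def, Real.norm_eq_abs, Real.norm_eq_abs]

theorem cont_al' : Continuous al := by unfold al; fun_prop

theorem cont_sc' : Continuous sc := by unfold sc; fun_prop

theorem al_mid {s : ℝ} (h : |s| ≤ 1) : al s = (s, -1) := by
  have := abs_le.1 h
  rw [al, min_eq_right this.2, max_eq_right this.1, max_eq_left (by linarith)]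

theorem al_hi {s : ℝ} (h : 1 ≤ s) : al s = (1, s - 2) := by
  rw [al, min_eq_left h, max_eq_right (by norm_num), abs_of_nonneg (by linarith),
    max_eq_right (by linarith)]

theorem al_lo {s : ℝ} (h : s ≤ -1) : al s = (-1, -s - 2) := by
  rw [al, min_eq_right (by linarith), max_eq_left h, abs_of_nonpos (by linarith),
    max_eq_right (by linarith)]

theorem al_spec {s : ℝ} (h : |s| ≤ 3) : ‖al s‖ = 1 ∧ sc (al s) = s ∧ nb (al s) = |s| := by
  have h' := abs_le.1 h
  rcases le_total s (-1) with h1 | h1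
  · have e : sc (al s) = s := by rw [al_lo h1, sc]; ring
    refine ⟨?_, e, ?_⟩
    · rw [al_lo h1, norm_R2, max_eq_left] <;> simp only [abs_neg, abs_one]
      exact abs_le.2 ⟨by linarith, by linarith⟩
    · rw [nb, e, al_lo h1, abs_of_nonpos (by linarith), max_eq_left (by simp only; linarith)]
  rcases le_total s 1 with h2 | h2
  · have h3 : |s| ≤ 1 := abs_le.2 ⟨h1, h2⟩
    have e : sc (al s) = s := by rw [al_mid h3, sc]; ring
    refine ⟨?_, e, ?_⟩
    · rw [al_mid h3, norm_R2, max_eq_right] <;> simp only [abs_neg, abs_one]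
      exact h3
    · rw [nb, e, al_mid h3, max_eq_left (by simp)]
  · have e : sc (al s) = s := by rw [al_hi h2, sc]; ring
    refine ⟨?_, e, ?_⟩
    · rw [al_hi h2, norm_R2, max_eq_left] <;> simp only [abs_one]
      exact abs_le.2 ⟨by linarith, by linarith⟩
    · rw [nb, e, al_hi h2, abs_of_nonneg (by linarith), max_eq_left (by simp only; linarith)]

theorem al_sc' {k : R2} (hk : ‖k‖ = 1) (h : k.2 < 1) : al (sc k) = k := by
  rw [norm_R2] at hk
  have h1 : |k.1| ≤ 1 := hk ▸ le_max_left _ _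
  have h2 := abs_le.1 (show |k.2| ≤ 1 from hk ▸ le_max_right _ _)
  rcases max_eq_iff.1 hk with ⟨e, -⟩ | ⟨e, -⟩
  · rcases (abs_eq zero_le_one).1 e with e | e
    · rw [sc, e, al_hi (by linarith)]
      exact Prod.ext e.symm (by ring)
    · rw [sc, e, al_lo (by linarith)]
      exact Prod.ext e.symm (by ring)
  · have e' : k.2 = -1 := ((abs_eq zero_le_one).1 e).resolve_left h.ne
    have : sc k = k.1 := by rw [sc, e']; ring
    rw [this, al_mid h1, ← e']

variable {n : ℕ} {ty : JS n → Bool}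

theorem tS_hole {j : JS n} (hj : j ≠ .inr true) (x : R2 × R2) :
    4 * dS n j x.1 ≤ tS n ty x j ∧ (ty j = false → 4 * (1 - ‖x.2‖) ≤ tS n ty x j) := by
  rw [tS, if_neg hj]
  cases ty j
  · simp only [Bool.false_eq_true, if_false]
    exact ⟨by gcongr; exact le_max_left _ _, fun _ => by gcongr; exact le_max_right _ _⟩
  · simp

theorem dS_out (u : R2) : (4 * n + 4) * dS n (.inr true) u = 2 * (2 * n + 2 - ‖u‖) := by
  simp only [dS]
  field_simp
  ring

theorem tS_out {x : R2 × R2} (h : tS n ty x (.inr true) ≤ 1) :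
    2 * n + 2 - ‖x.1‖ ≤ 1 / 2 ∨ ty (.inr true) = false ∧ ‖x.2‖ ≤ 5 / 8 := by
  have e := dS_out (n := n) x.1
  have hn : (0 : ℝ) ≤ n := n.cast_nonneg
  rw [tS, if_pos rfl] at h
  cases ht : ty (.inr true)
  · simp only [ht, Bool.false_eq_true, if_false] at h
    rcases min_choice (dS n (.inr true) x.1) (2 * ‖x.2‖ - 1) with h1 | h1 <;> rw [h1] at h
    · exact .inl (by linarith)
    · exact .inr ⟨rfl, by nlinarith⟩
  · simp only [ht, if_true] at h
    exact .inl (by linarith)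

theorem dS_inl {j : Fin n} {u : R2} {a : ℝ} (h : dS n (.inl j) u ≤ a) :
    |2 * (2 * n + 2 - ‖u‖) - (4 * j.1 + 3)| ≤ 1 + a ∧ nb (nz u) ≤ 1 + a := by
  simp only [dS, nS, sub_le_iff_le_add, max_le_iff] at h
  exact ⟨by linarith [h.1], by linarith [h.2]⟩

theorem cast_le (j : Fin n) : (0 : ℝ) ≤ j.1 ∧ (j.1 : ℝ) + 1 ≤ n :=
  ⟨Nat.cast_nonneg _, by exact_mod_cast j.2⟩

theorem sep_out (h : ty (.inr true) = false → ∀ j, ty j = false) {j : JS n} (hj : j ≠ .inr true)
    {x : R2 × R2} (h1 : tS n ty x (.inr true) ≤ 1) (h2 : tS n ty x j ≤ 1) : False := by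
  have hh := tS_hole (ty := ty) hj x
  have hn : (0 : ℝ) ≤ n := n.cast_nonneg
  rcases tS_out h1 with h3 | ⟨h3, h4⟩
  · rcases j with j | _ | _
    · have := abs_le.1 (dS_inl (show dS n (.inl j) x.1 ≤ 1 / 4 by linarith [hh.1])).1
      linarith [this.1, (cast_le j).1]
    · have := hh.1
      simp only [dS] at this
      linarith
    · exact hj rfl
  · linarith [hh.2 (h h3 j)]

theorem sep_in {j : Fin n} {x : R2 × R2} (h1 : tS n ty x (.inr false) ≤ 1)
    (h2 : tS n ty x (.inl j) ≤ 1) : False := by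
  have a := (tS_hole (ty := ty) (j := .inr false) (by simp) x).1
  have b := (tS_hole (ty := ty) (j := .inl j) (by simp) x).1
  have := abs_le.1 (dS_inl (show dS n (.inl j) x.1 ≤ 1 / 4 by linarith)).1
  simp only [dS] at a
  linarith [this.2, (cast_le j).2]

end Pr

open Pr

variable {n : ℕ} {ty : JS n → Bool}

/-- the collars of different walls are far apart -/
theorem tS_sep (h : ty (.inr true) = false → ∀ j, ty j = false) {j j' : JS n} (hj : j ≠ j')
    (x : R2 × R2) (h1 : tS n ty x j ≤ 1) : 1 < tS n ty x j' := by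
  by_contra h2
  rw [not_lt] at h2
  by_cases a : j = .inr true
  · subst a; exact sep_out h hj.symm h1 h2
  by_cases b : j' = .inr true
  · subst b; exact sep_out h hj h2 h1
  rcases j with j | _ | _
  · rcases j' with j' | _ | _
    · have p := abs_le.1 (dS_inl (show dS n (.inl j) x.1 ≤ 1 / 4 by
        linarith [(tS_hole (ty := ty) a x).1])).1
      have q := abs_le.1 (dS_inl (show dS n (.inl j') x.1 ≤ 1 / 4 by
        linarith [(tS_hole (ty := ty) b x).1])).1
      have hne : j.1 ≠ j'.1 := fun e => hj (congrArg _ (Fin.ext e))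
      rcases lt_or_gt_of_ne hne with l | l
      · have : (j.1 : ℝ) + 1 ≤ j'.1 := by exact_mod_cast l
        linarith [p.2, q.1]
      · have : (j'.1 : ℝ) + 1 ≤ j.1 := by exact_mod_cast l
        linarith [p.1, q.2]
    · exact sep_in h2 h1
    · exact b rfl
  · rcases j' with j' | _ | _
    · exact sep_in h1 h2
    · exact hj rfl
    · exact b rfl
  · exact a rfl

/-- the projection of a Seifert piece -/
def πS (n : ℕ) (x : R2 × R2) : R2 × ℝ × R2 := (nz x.1, 2 * n + 2 - ‖x.1‖, nz x.2)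

/-- the cross section of a hole -/
def σS (n : ℕ) : JS n → R2 → R2
  | .inl j, w => (2 * n + 2 - (w.1 + (4 * j.1 + 3)) / 2 : ℝ) • al w.2
  | .inr true, w => (2 * n + 2 : ℝ) • w
  | .inr false, w => w

/-- its inverse -/
def σS' (n : ℕ) : JS n → R2 → R2
  | .inl j, u => (2 * (2 * n + 2 - ‖u‖) - (4 * j.1 + 3), sc (nz u))
  | .inr true, u => (2 * n + 2 : ℝ)⁻¹ • u
  | .inr false, u => u

theorem cont_σS (j : JS n) : Continuous (σS n j) := by
  rcases j with j | _ | _
  · exact Continuous.smul (f := fun w : R2 => (2 * n + 2 - (w.1 + (4 * j.1 + 3)) / 2 : ℝ))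
      (by fun_prop) (cont_al'.comp continuous_snd)
  · exact continuous_id
  · exact continuous_const_smul _

theorem cont_σS' (j : JS n) : Continuous (σS' n j) := by
  rcases j with j | _ | _
  · exact Continuous.prodMk (by fun_prop) (cont_sc'.comp cont_nz')
  · exact continuous_id
  · exact continuous_const_smul _

theorem σS_inl (j : Fin n) {w : R2} (hw : ‖w‖ ≤ 2) : nz (σS n (.inl j) w) = al w.2 ∧
    ‖σS n (.inl j) w‖ = 2 * n + 2 - (w.1 + (4 * j.1 + 3)) / 2 := by
  rw [norm_R2, max_le_iff] at hw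
  exact nz_smul' (al_spec (hw.2.trans (by norm_num))).1
    (by linarith [(abs_le.1 hw.1).2, (cast_le j).2])

theorem σS_li (j : JS n) {w : R2} (hw : ‖w‖ ≤ 2) : σS' n j (σS n j w) = w := by
  rcases j with j | _ | _
  · have h2 : |w.2| ≤ 3 := by rw [norm_R2, max_le_iff] at hw; linarith [hw.2]
    simp only [σS']
    rw [(σS_inl j hw).1, (σS_inl j hw).2, (al_spec h2).2.1]
    exact Prod.ext (by ring) rfl
  · rfl
  · simp only [σS, σS']
    rw [smul_smul, inv_mul_cancel₀ (by positivity), one_smul]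

theorem dS_σS (j : JS n) {w : R2} (hw : ‖w‖ ≤ 2) :
    dS n j (σS n j w) = if j = .inr true then 1 - ‖w‖ else ‖w‖ - 1 := by
  rcases j with j | _ | _
  · have h2 : |w.2| ≤ 3 := by rw [norm_R2, max_le_iff] at hw; linarith [hw.2]
    simp only [dS, nS, reduceCtorEq, if_false]
    rw [(σS_inl j hw).1, (σS_inl j hw).2, (al_spec h2).2.2, norm_R2]
    congr 3
    ring
  · simp [dS, σS]
  · simp only [dS, σS, if_true]
    rw [norm_smul, Real.norm_eq_abs, abs_of_nonneg (by positivity), mul_div_cancel_left₀ _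
      (by positivity)]

theorem σS_ri {j : JS n} {u : R2} (h : j ≠ .inr true → dS n j u < 1) : σS n j (σS' n j u) = u := by
  rcases j with j | _ | _
  · have h1 := h (by simp)
    have h2 := abs_le.1 (dS_inl h1.le).1
    have h3 : 1 / 2 ≤ ‖u‖ := by linarith [h2.2, (cast_le j).2]
    have h4 : (nz u).2 < 1 := by
      have : nb (nz u) - 1 ≤ dS n (.inl j) u := by
        simp only [dS, nS]; gcongr; exact le_max_right _ _
      have h5 : (nz u).2 + 1 ≤ nb (nz u) := le_max_right _ _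
      linarith
    simp only [σS, σS']
    rw [al_sc' (norm_nz' h3) h4]
    convert smul_nz' h3 using 2
    ring
  · rfl
  · simp only [σS, σS']
    rw [smul_smul, mul_inv_cancel₀ (by positivity), one_smul]

theorem norm_σS' {j : JS n} (hj : j ≠ .inr true) (u : R2) : ‖σS' n j u‖ ≤ 1 + dS n j u := by
  rcases j with j | _ | _
  · have := dS_inl (le_refl (dS n (.inl j) u))
    rw [norm_R2]
    exact max_le this.1 ((le_max_left _ _).trans this.2)
  · simp [dS, σS']
  · exact absurd rfl hj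

theorem π_σS (j : JS n) {m : R2} (hm : ‖m‖ = 1) :
    (nz (σS n j m), 2 * n + 2 - ‖σS n j m‖) = γS n j m := by
  have hn : (0 : ℝ) ≤ n := n.cast_nonneg
  rcases j with j | _ | _
  · have h2 : |m.2| ≤ 1 := by rw [norm_R2] at hm; exact hm ▸ le_max_right _ _
    rw [(σS_inl j (by linarith)).1, (σS_inl j (by linarith)).2, al_mid h2]
    exact Prod.ext rfl (by simp only [γS]; ring)
  · have := nz_smul' hm (show (1 / 2 : ℝ) ≤ 1 by norm_num)
    rw [one_smul] at this
    simp only [σS, γS]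
    rw [this.1, hm]
    exact Prod.ext rfl (by ring)
  · simp only [σS, γS]
    rw [(nz_smul' hm (by linarith)).1, (nz_smul' hm (by linarith)).2, sub_self]

/-- slope of the collar -/
def eS (n : ℕ) (j : JS n) : ℝ := if j = .inr true then -(4 * n + 4 : ℝ)⁻¹ else 1 / 4

/-- scale of the height -/
def cS' (n : ℕ) (j : JS n) : ℝ := if j = .inr true then 1 / 2 else 1

theorem eS_spec (j : JS n) : |eS n j| ≤ 1 / 4 ∧ eS n j ≠ 0 ∧ 0 < cS' n j ∧ cS' n j ≤ 1 ∧
    ∀ s ρ : ℝ, 0 ≤ s → s ≤ 1 → 1 - ρ ≤ eS n j * s → 1 / 2 ≤ cS' n j * ρ := by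
  have hn : (0 : ℝ) ≤ n := n.cast_nonneg
  have h0 : (0 : ℝ) < (4 * n + 4 : ℝ)⁻¹ := by positivity
  unfold eS cS'
  split_ifs
  · refine ⟨?_, by linarith, by norm_num, by norm_num, fun s ρ h1 _ h3 => by nlinarith⟩
    rw [abs_neg, abs_of_pos h0, inv_le_comm₀ (by positivity) (by norm_num)]
    linarith
  · exact ⟨by norm_num [abs_of_pos], by norm_num, by norm_num, le_rfl, fun s ρ _ _ _ => by linarith⟩

theorem eS_tS {j : JS n} (hj : ty j = false) {w : R2} (hw : ‖w‖ ≤ 2) (z : R2) :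
    eS n j * tS n ty (σS n j w, z) j = ta w (‖z‖ / cS' n j) := by
  rw [tS, eS, cS', dS_σS j hw, hj, ta]
  simp only [Bool.false_eq_true, if_false]
  split_ifs
  · rw [← mul_assoc, neg_mul, inv_mul_cancel₀ (by positivity), neg_one_mul, neg_inf]
    congr 1 <;> ring
  · rw [div_one]; ring

/-- the prism walls -/
def prS (n : ℕ) (ty : JS n → Bool) (h : ty (.inr true) = false → ∀ j, ty j = false) (j : JS n)
    (hj : ty j = false) : WD (fun x : ES n ty => tS n ty x.1 j) (fun x => ht x.1.2)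
      (fun x => (nz x.1.1, 2 * n + 2 - ‖x.1.1‖, nz x.1.2)) (τS n ty j) :=
  WD.prism (fun x : R2 × R2 => ∀ j, 0 ≤ tS n ty x j) (fun x => tS n ty x j) (fun x => ht x.2) (πS n)
    (τS n ty j) (eS n j) (cS' n j) (fun y => (σS n j y.2.1, (cS' n j * y.2.2) • y.1.1))
    (fun x => (nz x.2, σS' n j x.1, ‖x.2‖ / cS' n j))
    (((cont_σS j).comp (by fun_prop)).prodMk (by fun_prop))
    ((cont_nz'.comp continuous_snd).prodMk (((cont_σS' j).comp continuous_fst).prodMk (by fun_prop)))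
    (eS_spec j).1 (eS_spec j).2.1 (eS_spec j).2.2.1 (eS_spec j).2.2.2.1
    (fun l ω ρ s s0 s1 hs => by
      obtain ⟨e1, e0, c0, -, hc⟩ := eS_spec j
      have ha := abs_le.1 (abs_es e1 s0 s1)
      have hω : ‖ω‖ ≤ 2 := by have : ‖ω‖ - 1 ≤ ta ω ρ := le_max_left _ _; linarith
      have hz := nz_smul' (nK l) (hc s ρ s0 s1 (hs ▸ le_max_right _ _))
      have hρ : ‖(cS' n j * ρ) • l.1‖ / cS' n j = ρ := by rw [hz.2, mul_div_cancel_left₀ _ c0.ne']
      have ht : tS n ty (σS n j ω, (cS' n j * ρ) • l.1) j = s :=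
        mul_left_cancel₀ e0 (by rw [eS_tS hj hω, hρ, hs])
      refine ⟨by simp only [hz.1, σS_li j hω, hρ], fun j' => ?_, ht⟩
      by_cases e : j = j'
      · subst e; exact ht ▸ s0
      · exact zero_le_one.trans (tS_sep h e _ (ht ▸ s1)).le)
    (fun x hx h1 => by
      obtain ⟨e1, e0, c0, -, hc⟩ := eS_spec j
      have hn : (0 : ℝ) ≤ n := n.cast_nonneg
      have hri : σS n j (σS' n j x.1) = x.1 :=
        σS_ri fun hj' => by linarith [(tS_hole (ty := ty) hj' x).1]
      have hω : ‖σS' n j x.1‖ ≤ 2 := by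
        by_cases e : j = .inr true
        · subst e
          have h2 := hx (.inr true)
          rw [tS, if_pos rfl, hj] at h2
          simp only [Bool.false_eq_true, if_false] at h2
          have h3 : 0 ≤ dS n (.inr true) x.1 :=
            (nonneg_of_mul_nonneg_right h2 (by positivity) |>.trans (min_le_left _ _))
          simp only [dS, σS'] at h3 ⊢
          rw [norm_smul, norm_inv, Real.norm_eq_abs, abs_of_nonneg (by positivity), ← div_eq_inv_mul]
          linarith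
        · linarith [norm_σS' e x.1, (tS_hole (ty := ty) e x).1]
      have ht := eS_tS hj hω x.2
      rw [hri] at ht
      have hz := hc _ (‖x.2‖ / cS' n j) (hx j) h1.le (ht ▸ le_max_right _ _)
      rw [mul_div_cancel₀ _ c0.ne'] at hz
      refine ⟨⟨nz x.2, by simp [norm_nz' hz]⟩, σS' n j x.1, ‖x.2‖ / cS' n j, tS n ty x j, hx j, h1.le,
        ht.symm, Prod.ext hri ?_⟩
      simp only
      rw [mul_div_cancel₀ _ c0.ne', smul_nz' hz])
    (fun l ω ρ hρ => by
      have c0 := (eS_spec j).2.2.1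
      simp only [ht]
      rw [norm_smul, nK, mul_one, Real.norm_eq_abs, abs_of_nonneg (by positivity)])
    (fun l m ρ hm hρ => by
      have := π_σS j hm
      simp only [πS, τS, hj, Bool.false_eq_true, if_false]
      rw [(nz_smul' (nK l) (by linarith)).1, ← this])

end Crest.Agent.N233.Pc

end
private theorem rz_031ec24130 : type_of% @_root_.Crest.Agent.N233.Pc.«σS».eq_1 := @_root_.Crest.Agent.N233.Pc.«σS».eq_1 -- L167
private theorem rz_bff1c44c57 : type_of% @_root_.Crest.Agent.N233.Pc.«σS'».eq_1 := @_root_.Crest.Agent.N233.Pc.«σS'».eq_1 -- L173
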