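import Crest.Agent.N233.Pc.In0

/-!
# Row 233 (helper68): the bipartite filling, how the copies meet
-/

set_option autoImplicit false
open Set

noncomputable section

namespace Crest.Agent.N233.Pc.In

open Crest.Agent.N255

theorem enc_lab : ∀ a : SV, Da.enc (lab a) = cd a.1 a.2 := by decide +kernel

theorem cd_eq {a a' : SV} (h : lab a = lab a') : cd a.1 a.2 = cd a'.1 a'.2 := by
  rw [← enc_lab, ← enc_lab, h]

theorem wl_fst (j : Ed × Bool) (t : Tor) : (wl j t).1 = wn j := rfl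

theorem wl_inj : ∀ j, Function.Injective (wl j) := by
  intro j a b; revert j a b; decide +kernel

theorem lab_in : ∀ ε i t, lab (wl ((ε, i, false), true) t) = lab (wl ((ε, i, false), false) t) := by
  decide +kernel

/-- the label on a wall of the chamber -/
def tl (ε : Bool) (i : Fin 3) (t : Tor) : Fin 16 :=
  Fin.ofNat 16 (cd (wn ((ε, i, true), false)) (wl ((ε, i, true), false) t).2 - 112)

theorem lab_ex : ∀ ε i b t, lab (wl ((ε, i, true), b) t) = .inr ((i, b), tl ε i t) := by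
  decide +kernel

theorem tl_inj : ∀ ε i, Function.Injective (tl ε i) := by
  intro ε i a b; revert ε i a b; decide +kernel

set_option synthInstance.maxSize 2000 in
theorem loc_eq : ∀ (ε : Bool) (o o' : Option (Fin 3)) (a a' : V3), cd (ε, o) a = cd (ε, o') a' →
    (o = o' ∧ a = a') ∨ ∃ i b t, (⟨(ε, o), a⟩ : SV) = wl ((ε, i, false), b) t ∧
      (⟨(ε, o'), a'⟩ : SV) = wl ((ε, i, false), !b) t := by
  decide +kernel

/-- the side of a wall of the chamber -/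
def ex (ε : Bool) (j : Fin 3 × Bool) : Ed × Bool := ((if j.2 then ε else nx ε j.1, j.1, true), j.2)

theorem loc_ex' : ∀ a : SV, (lab a).elim (fun _ => True) fun q => ∃ t, a = wl (ex a.1.1 q.1) t := by
  have : ∀ a : SV, 112 ≤ cd a.1 a.2 → ∃ t, a = wl (ex a.1.1 (Fin.ofNat 3 ((cd a.1 a.2 - 112) / 32),
      decide ((cd a.1 a.2 - 112) / 16 % 2 = 1))) t := by decide +kernel
  intro a
  unfold lab dec
  split_ifs with h
  exacts [trivial, this a (not_lt.1 h)]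

theorem loc_ex {a : SV} {j : Fin 3 × Bool} {t : Fin 16} (h : lab a = .inr (j, t)) :
    ∃ s, a = wl (ex a.1.1 j) s := by
  have := loc_ex' a
  rwa [h] at this

theorem nx_nx : ∀ ε i, nx (nx ε i) i = ε := by decide

/-- the total exponent -/
def ψ : F3 →* Multiplicative ℤ := FreeGroup.lift fun _ => .ofAdd 1

/-- the total exponent of the voltages -/
def nv : Ed × Bool → ℤ
  | ((ε, i, true), false) => (if ε then 1 else 0) + 1 - if nx ε i then 1 else 0
  | _ => 0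

theorem ψ_tp (ε : Bool) : (ψ (tp ε)).toAdd = if ε then 1 else 0 := by cases ε <;> simp [tp, ψ]

theorem ψ_g (j : Ed × Bool) : (ψ (g j).1).toAdd = nv j := by
  obtain ⟨⟨ε, i, _ | _⟩, _ | _⟩ := j
  · simp [g, nv]
  · simp [g, nv]
  · change (ψ (tp ε * .of i * (tp (nx ε i))⁻¹)).toAdd = _
    rw [ψ.map_mul, ψ.map_mul, ψ.map_inv, toAdd_mul, toAdd_mul, toAdd_inv, ψ_tp, ψ_tp]
    simp [ψ, nv, sub_eq_add_neg]
  · simp [g, nv]

theorem wn_ne {j : Ed × Bool} (h : g j = g (op j)) : wn j ≠ wn (op j) := by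
  have : nv j = nv (op j) := by rw [← ψ_g, ← ψ_g, h]
  revert j; intro j _; revert j; decide

theorem wall_uniq {j j' : Ed × Bool} {f f' : F2} (h1 : wn j = wn j') (h2 : wn (op j) = wn (op j'))
    (h3 : f * g j = f' * g j') (h4 : f * g (op j) = f' * g (op j')) : j = j' := by
  have e : ∀ {a b c d : F2}, a * b = c * d → (ψ a.1).toAdd + (ψ b.1).toAdd =
      (ψ c.1).toAdd + (ψ d.1).toAdd := fun h => by
    rw [← toAdd_mul, ← toAdd_mul, ← ψ.map_mul, ← ψ.map_mul, ← Subgroup.coe_mul, h, Subgroup.coe_mul]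
  have a := e h3
  have b := e h4
  simp only [ψ_g] at a b
  have key : ∀ j j' : Ed × Bool, wn j = wn j' → wn (op j) = wn (op j') →
      nv (op j) - nv j = nv (op j') - nv j' → j = j' := by decide +kernel
  exact key j j' h1 h2 (by omega)

theorem χ_vt (f : F2) (n : Nd) : (χ (vt f n)).toAdd % 2 = if n.1 then 1 else 0 := by
  obtain ⟨k, hk⟩ := Wu.mem_Gn.1 f.2
  rw [vt, χ.map_mul, toAdd_mul, hk, χ_tp]
  split_ifs <;> omega

theorem vt_inj {f f' : F2} {n n' : Nd} (h : vt f n = vt f' n') : f = f' ∧ n.1 = n'.1 := by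
  have a := χ_vt f n
  rw [h, χ_vt] at a
  have e : n.1 = n'.1 := by revert a; cases n.1 <;> cases n'.1 <;> simp
  exact ⟨Subtype.ext (mul_right_cancel (b := tp n.1) (by rw [vt, vt, ← e] at h; exact h)), e⟩

theorem exists_vt (v : F3) : ∃ (f : F2) (ε : Bool), ∀ o, vt f (ε, o) = v := by
  by_cases h : 2 ∣ (χ v).toAdd
  · exact ⟨⟨v, h⟩, false, fun _ => mul_one _⟩
  · refine ⟨⟨v * (tp true)⁻¹, ?_⟩, true, fun _ => inv_mul_cancel_right _ _⟩
    rw [Wu.mem_Gn, χ.map_mul, χ.map_inv, toAdd_mul, toAdd_inv, χ_tp]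
    simp only [if_true]
    omega

theorem vt_of {f f' : F2} {n n' : Nd} {i : Fin 3} (h : vt f' n' = vt f n * .of i) :
    n'.1 = nx n.1 i ∧ f' = f * g ((n.1, i, true), false) := by
  have e : vt (f * g ((n.1, i, true), false)) (nx n.1 i, n'.2) = vt f n * .of i := by
    simp only [vt, g, Subgroup.coe_mul]; group
  exact (vt_inj (h.trans e.symm)).symm

/-- the two sides of a wall -/
def Op (f : F2) (a : SV) (f' : F2) (a' : SV) : Prop :=
  ∃ f0 j t, f = f0 * g j ∧ f' = f0 * g (op j) ∧ a = wl j t ∧ a' = wl (op j) t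

theorem op_op' (j : Ed × Bool) : op (op j) = j := by simp [op]

theorem Op.symm {f f' : F2} {a a' : SV} (h : Op f a f' a') : Op f' a' f a :=
  let ⟨f0, j, t, h1, h2, h3, h4⟩ := h
  ⟨f0, op j, t, h2, by rwa [op_op'], h4, by rwa [op_op']⟩

theorem op_ex {f f' : F2} {a a' : SV} {i : Fin 3} {t : Fin 16} (h : lab a = .inr ((i, true), t))
    (h' : lab a' = .inr ((i, false), t)) (e : vt f' a'.1 = vt f a.1 * .of i) : Op f a f' a' := by
  obtain ⟨e1, e2⟩ := vt_of e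
  obtain ⟨s, hs⟩ := loc_ex h
  obtain ⟨s', hs'⟩ := loc_ex h'
  simp only [ex, if_true, Bool.false_eq_true, if_false, e1, nx_nx] at hs hs'
  rw [hs, lab_ex] at h
  rw [hs', lab_ex] at h'
  obtain rfl : s = s' := tl_inj _ _ (by
    simp only [Sum.inr.injEq, Prod.mk.injEq, true_and] at h h'; rw [h, h'])
  exact ⟨f, ((a.1.1, i, true), true), s, (mul_one _).symm, e2, hs, hs'⟩

/-- when two copies of vertices agree -/
theorem cp_eq {f f' : F2} {a a' : SV} (h : cp f a = cp f' a') : (f = f' ∧ a = a') ∨ Op f a f' a' := by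
  rcases Pt.cp_eq.1 h with ⟨h1, h2⟩ | ⟨⟨i, _ | _⟩, t, h1, h2, h3⟩
  · obtain ⟨⟨ε, o⟩, a⟩ := a
    obtain ⟨⟨ε', o'⟩, a'⟩ := a'
    obtain ⟨rfl, rfl⟩ : f' = f ∧ ε' = ε := vt_inj h1
    rcases loc_eq ε' o o' a a' (cd_eq h2.symm) with ⟨rfl, rfl⟩ | ⟨i, b, t, k, k'⟩
    · exact .inl ⟨rfl, rfl⟩
    · exact .inr ⟨f', ((ε', i, false), b), t, by cases b <;> exact (mul_one _).symm,
        by cases b <;> exact (mul_one _).symm, k, k'⟩
  · exact .inr (op_ex h2 h1 (by rw [h3, Pt.x_false, inv_mul_cancel_right])).symm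
  · exact .inr (op_ex h1 h2 h3)

theorem cp_glue (f : F2) (e : Ed) (t : Tor) :
    cp (f * g (e, true)) (wl (e, true) t) = cp (f * g (e, false)) (wl (e, false) t) := by
  obtain ⟨ε, i, _ | _⟩ := e
  · unfold cp
    rw [lab_in]; rfl
  · unfold cp
    rw [lab_ex, lab_ex, ← Pt.cp_op _ (i, true)]
    congr 1
    simp only [vt, g, wl_fst, Subgroup.coe_mul, Pt.x_true, mul_one]
    change _ = _ * tp (nx ε i)
    change f.1 * tp ε * _ = _
    group

theorem cp_smul (f f' : F2) (a : SV) : f.1 • cp f' a = cp (f * f') a := by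
  rw [cp, cp, Pt.smul_cp, vt, vt, Subgroup.coe_mul, mul_assoc]

theorem cp_fin (s : St) : {f | ∃ a, cp f a = s}.Finite := by
  refine Finite.subset (Finite.preimage (f := fun f : F2 => f.1) Subtype.val_injective.injOn
    (finite_range fun q : Option (Fin 3 × Bool) × Bool =>
      s.v * q.1.elim 1 Pt.x * (tp q.2)⁻¹)) ?_
  rintro f ⟨a, ha⟩
  by_cases e : vt f a.1 = s.v
  · exact ⟨(none, a.1.1), by simp [← e, vt]⟩
  · obtain ⟨j, t, h, -⟩ := Pt.two_cp (Pt.exists_cp s) ⟨_, ha⟩ e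
    exact ⟨(some j, a.1.1), by simp [← h, vt]⟩

theorem Fc_fst {A : Set SV} (h : Fc A) {a b : SV} (ha : a ∈ A) (hb : b ∈ A) : a.1 = b.1 := by
  obtain ⟨n, B, -, rfl⟩ := h
  obtain ⟨_, -, rfl⟩ := ha
  obtain ⟨_, -, rfl⟩ := hb
  rfl

theorem eq_of_cp {f : F2} {a a' : SV} (h : cp f a = cp f a') (e : a.1 = a'.1) : a = a' := by
  rcases cp_eq h with h | ⟨f0, j, t, h1, h2, rfl, rfl⟩
  · exact h.2
  · exact absurd e (wn_ne (mul_left_cancel (h1.symm.trans h2)))

theorem cp_two (f f' : F2) (A A' : Set SV) (hA : Fc A) (hA' : Fc A') (hn : A.Nonempty)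
    (h : cp f '' A = cp f' '' A') : (f = f' ∧ A = A') ∨ ∃ f0 e b T, f = f0 * g (e, b) ∧
      f' = f0 * g (e, !b) ∧ A = wl (e, b) '' T ∧ A' = wl (e, !b) '' T := by
  have k : ∀ a ∈ A, ∃ a' ∈ A', cp f a = cp f' a' := fun a ha => by
    obtain ⟨a', h1, h2⟩ := h ▸ mem_image_of_mem (cp f) ha
    exact ⟨a', h1, h2.symm⟩
  have k' : ∀ a' ∈ A', ∃ a ∈ A, cp f a = cp f' a' := fun a' ha => by
    obtain ⟨a, h1, h2⟩ := h.symm ▸ mem_image_of_mem (cp f') ha
    exact ⟨a, h1, h2⟩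
  obtain ⟨a0, h0⟩ := hn
  obtain ⟨a0', h0', e0⟩ := k a0 h0
  rcases cp_eq e0 with ⟨rfl, rfl⟩ | ⟨f0, j, t0, rfl, rfl, rfl, rfl⟩
  · have q : ∀ a ∈ A, ∀ a' ∈ A', cp f a = cp f a' → a = a' := fun a ha a' ha' e =>
      eq_of_cp e ((Fc_fst hA ha h0).trans (Fc_fst hA' h0' ha'))
    refine .inl ⟨rfl, Subset.antisymm (fun a ha => ?_) fun a' ha' => ?_⟩
    · obtain ⟨a', h1, h2⟩ := k a ha
      exact q a ha a' h1 h2 ▸ h1
    · obtain ⟨a, h1, h2⟩ := k' a' ha'
      exact q a h1 a' ha' h2 ▸ h1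
  · have q : ∀ a ∈ A, ∀ a' ∈ A', cp (f0 * g j) a = cp (f0 * g (op j)) a' →
        ∃ t, a = wl j t ∧ a' = wl (op j) t := fun a ha a' ha' e => by
      have n1 : a.1 = wn j := Fc_fst hA ha h0
      have n2 : a'.1 = wn (op j) := Fc_fst hA' ha' h0'
      rcases cp_eq e with ⟨h1, rfl⟩ | ⟨f1, j1, t, h1, h2, rfl, rfl⟩
      · exact absurd (n1.symm.trans n2) (wn_ne (mul_left_cancel h1))
      · obtain rfl : j = j1 := wall_uniq n1.symm n2.symm h1 h2
        exact ⟨t, rfl, rfl⟩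
    refine .inr ⟨f0, j.1, j.2, {t | wl j t ∈ A}, rfl, rfl, Subset.antisymm (fun a ha => ?_) ?_,
      Subset.antisymm (fun a' ha' => ?_) ?_⟩
    · obtain ⟨a', h1, h2⟩ := k a ha
      obtain ⟨t, rfl, -⟩ := q a ha a' h1 h2
      exact ⟨t, ha, rfl⟩
    · rintro _ ⟨t, ht, rfl⟩
      exact ht
    · obtain ⟨a, h1, h2⟩ := k' a' ha'
      obtain ⟨t, rfl, rfl⟩ := q a h1 a' ha' h2
      exact ⟨t, h1, rfl⟩
    · rintro _ ⟨t, ht, rfl⟩
      obtain ⟨a', h1, h2⟩ := k _ ht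
      obtain ⟨t', h3, rfl⟩ := q _ ht a' h1 h2
      exact wl_inj j h3 ▸ h1

/-- the local facts about faces -/
structure FL : Prop where
  face : ∀ (ε : Bool) (A : Set Da.VV), Da.Γ.IsClique A ↔
    ∃ o B, Fn (ε, o) B ∧ A = (fun a => lab ⟨(ε, o), a⟩) '' B
  full : ∀ j T, Fc (wl j '' T) → TF T

theorem face_iff (L : FL) (A : Set St) : Da.D.Gt.IsClique A ↔ ∃ f B, Fc B ∧ A = cp f '' B := by
  constructor
  · intro h
    obtain ⟨v, hv⟩ := Da.D.helly h
    obtain ⟨f, ε, e⟩ := exists_vt v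
    have hA : A = Pt.cp v '' (Pt.cp v ⁻¹' A) := (image_preimage_eq_of_subset hv).symm
    obtain ⟨o, B, hB, e'⟩ := (L.face ε _).1 ((Da.D.clique_cp v _).1 (hA ▸ h))
    refine ⟨f, _, ⟨(ε, o), B, hB, rfl⟩, ?_⟩
    rw [hA, e', image_image, image_image, ← e o]; rfl
  · rintro ⟨f, _, ⟨⟨ε, o⟩, B, hB, rfl⟩, rfl⟩
    have := (Da.D.clique_cp (vt f (ε, o)) _).2 ((L.face ε _).2 ⟨o, B, hB, rfl⟩)
    rw [image_image] at this ⊢
    exact this


/-- **the assembly** -/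
def asm (L : FL) {Ft : Set St → Prop} (h : ∀ A, Ft A ↔ Da.D.Gt.IsClique A) :
    Asm Fc wl Ft F2 fun f s => f.1 • s where
  g := g
  cp := cp
  π_inj f := MulAction.injective f.1
  cp_smul := cp_smul
  glue := cp_glue
  fin := cp_fin
  wl_inj := wl_inj
  full := L.full
  injOn _ _ hA _ ha _ hb e := eq_of_cp e (Fc_fst hA ha hb)
  face A := (h A).trans (face_iff L A)
  two := cp_two

instance (H : TM) : Nonempty (PP H).E := ⟨(PP H).κ ((false, 0, false), true) ((alK 0, 0), 0)⟩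

/-- **the filling**, up to contractibility -/
def pre (H : TM) (L : FL) {Ft : Set St → Prop} (h : ∀ A, Ft A ↔ Da.D.Gt.IsClique A) :
    Ae.Pre Ft F2 fun f s => f.1 • s := (PP H).pre (asm L h) tt


end Crest.Agent.N233.Pc.In

end
private theorem rz_4cac2c360f : type_of% @_root_.Crest.Agent.N233.Pc.In.nv.eq_1 := @_root_.Crest.Agent.N233.Pc.In.nv.eq_1 -- L67
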