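import Crest.Agent.N233.Pc.In1
import Crest.Agent.N233.Pc.In0
import Crest.Agent.N233.Pc.TriM

/-!
# Row 233 (helper68): the bipartite filling, faces
-/

set_option autoImplicit false
open Set

noncomputable section

namespace Crest.Agent.N233.Pc.In

open Crest.Agent.N255

/-- directed edges, as a test -/
def Dn : Nd → V3 → V3 → Bool
  | (_, none), a, b => decide (DrB a b)
  | (_, some _), a, b => @decide (DrS 1 a b) (by unfold DrS DI NS; infer_instance)

theorem Fn_iff (n : Nd) (A : Set V3) :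
    Fn n A ↔ ∀ a ∈ A, ∀ b ∈ A, Dn n a b = true ∨ Dn n b a = true := by
  obtain ⟨ε, _ | i⟩ := n
  · simp only [Dn, decide_eq_true_eq]; exact drB.iff A
  · simp only [Dn, decide_eq_true_eq]; exact (drS 1).iff A

theorem Dn_self : ∀ n a, Dn n a a = true := by decide +kernel

theorem adj_cd : ∀ n a b, (Da.nb (cd n a)).testBit (cd n b) = true ↔
    a ≠ b ∧ (Dn n a b = true ∨ Dn n b a = true) := by decide +kernel

theorem adj_lab (n : Nd) (a b : V3) : Da.Γ.Adj (lab ⟨n, a⟩) (lab ⟨n, b⟩) ↔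
    a ≠ b ∧ (Dn n a b = true ∨ Dn n b a = true) := by
  rw [Da.adj_iff, enc_lab, enc_lab]; exact adj_cd n a b

theorem cd_inj : ∀ n a b, cd n a = cd n b → a = b := by decide +kernel

theorem lab_inj (n : Nd) : Function.Injective fun a => lab ⟨n, a⟩ :=
  fun a b h => cd_inj n a b (cd_eq h)

/-- a piece that contains the vertex -/
def pc (c : ℕ) : Option (Fin 3) :=
  if c < 48 then some (Fin.ofNat 3 (c / 16)) else if c < 112 then none
  else some (Fin.ofNat 3 ((c - 112) / 32))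

theorem pc_mem : ∀ ε, ∀ c < 208, ∃ a, cd (ε, pc c) a = c := by decide +kernel

set_option synthInstance.maxSize 2000 in
theorem pc_adj : ∀ u < 208, ∀ v < 208, (Da.nb u).testBit v = true → pc u ≠ none →
    ∃ a, cd (false, pc u) a = v := by decide +kernel

theorem mem_lab {n : Nd} {a : V3} {u : Da.VV} (h : cd n a = Da.enc u) : lab ⟨n, a⟩ = u :=
  Da.enc_inj ((enc_lab _).trans h)

theorem cover (ε : Bool) {A : Set Da.VV} (h : Da.Γ.IsClique A) :
    ∃ o, A ⊆ range fun a => lab ⟨(ε, o), a⟩ := by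
  by_cases c : ∃ u ∈ A, pc (Da.enc u) ≠ none
  · obtain ⟨u, hu, c⟩ := c
    refine ⟨pc (Da.enc u), fun v hv => ?_⟩
    by_cases e : u = v
    · obtain ⟨a, ha⟩ := pc_mem ε _ (Da.enc_lt u)
      exact ⟨a, e ▸ mem_lab ha⟩
    · obtain ⟨a, ha⟩ := pc_adj _ (Da.enc_lt u) _ (Da.enc_lt v) (h hu hv e) c
      obtain ⟨i, hi⟩ := Option.ne_none_iff_exists'.1 c
      rw [hi] at ha ⊢
      exact ⟨a, mem_lab ha⟩
  · refine ⟨none, fun v hv => ?_⟩
    obtain ⟨a, ha⟩ := pc_mem ε _ (Da.enc_lt v)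
    rw [not_not.1 fun e => c ⟨v, hv, e⟩] at ha
    exact ⟨a, mem_lab ha⟩

theorem clique_lab (n : Nd) (B : Set V3) :
    Da.Γ.IsClique ((fun a => lab ⟨n, a⟩) '' B) ↔ Fn n B := by
  rw [Fn_iff]
  refine ⟨fun h a ha b hb => ?_, ?_⟩
  · by_cases e : a = b
    · exact .inl (e ▸ Dn_self n a)
    · exact ((adj_lab n a b).1 (h ⟨a, ha, rfl⟩ ⟨b, hb, rfl⟩ ((lab_inj n).ne e))).2
  · rintro h _ ⟨a, ha, rfl⟩ _ ⟨b, hb, rfl⟩ e
    exact (adj_lab n a b).2 ⟨fun c => e (c ▸ rfl), h a ha b hb⟩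

theorem Dn_wl : ∀ j a b, Dn (wn j) (wl j a).2 (wl j b).2 = true ↔ DT a b := by decide +kernel

theorem fl : FL where
  face ε A := by
    refine ⟨fun h => ?_, fun ⟨o, B, hB, e⟩ => e ▸ (clique_lab _ B).2 hB⟩
    obtain ⟨o, ho⟩ := cover ε h
    have e := image_preimage_eq_of_subset ho
    exact ⟨o, _, (clique_lab _ _).1 (e.symm ▸ h), e.symm⟩
  full j T := by
    rintro ⟨n, B, hB, e⟩
    refine (drT.iff T).2 fun a ha b hb => ?_
    obtain ⟨a', ha', ea⟩ := e ▸ mem_image_of_mem (wl j) ha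
    obtain ⟨b', hb', eb⟩ := e ▸ mem_image_of_mem (wl j) hb
    obtain rfl : n = wn j := congrArg Sigma.fst ea
    rw [← Dn_wl j, ← Dn_wl j, ← ea, ← eb]
    exact (Fn_iff _ B).1 hB a' ha' b' hb'





end Crest.Agent.N233.Pc.In

end
private theorem rz_d21e10d743 : type_of% @_root_.Crest.Agent.N233.Pc.In.Dn.eq_1 := @_root_.Crest.Agent.N233.Pc.In.Dn.eq_1 -- L18
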