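import Crest.Agent.N233.Defs

/-!
# Row 233 (helper67): pieces with walls, definitions

A piece is a four-manifold whose boundary components (walls) are open solid tori `K × ℝ²`, with a map to
the cone on a finite complex that is bijective off the apex.  `K` is the unit circle of the sup norm.
-/

set_option autoImplicit false
open Set unitInterval Topology

noncomputable section

namespace Crest.Agent.N233.Pc

/-- the plane with the sup norm -/
abbrev R2 : Type := ℝ × ℝ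

/-- the circle -/
abbrev KK : Type := Metric.sphere (0 : R2) 1

/-- the wall: surviving circle times the plane that fills the killed circle -/
abbrev VW : Type := KK × R2

/-- vertices of a wall torus: (surviving, killed) -/
abbrev Tor : Type := Fin 4 × Fin 4

/-- `X` looks like `H` near `x` -/
def LE (H : Type) {X : Type} [TopologicalSpace H] [TopologicalSpace X] (x : X) : Prop :=
  ∃ e : OpenPartialHomeomorph X H, x ∈ e.source

/-! ### triangulations -/

section Tri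

variable {S S' G : Type} [Fintype S] [NormedAddCommGroup G] [NormedSpace ℝ G]

/-- the cone on a finite complex -/
def Cn {S : Type} (Fc : Set S → Prop) : Set (S → ℝ) := {y | (∀ s, 0 ≤ y s) ∧ Fc {s | y s ≠ 0}}

/-- the realisation of a finite complex -/
def Dl (Fc : Set S → Prop) : Set (S → ℝ) := {y | y ∈ Cn Fc ∧ ∑ s, y s = 1}

/-- the linear map with given values on the vertices -/
def rl (pos : S → G) (y : S → ℝ) : G := ∑ s, y s • pos s

open Classical in
/-- push forward of weights -/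
def pu (c : S → S') (y : S → ℝ) (s' : S') : ℝ := ∑ s, if c s = s' then y s else 0

/-- a linear triangulation of `C` -/
structure Tri (Fc : Set S → Prop) (pos : S → G) (C : Set G) : Prop where
  down : ∀ A B : Set S, A ⊆ B → Fc B → Fc A
  emp : Fc ∅
  bij : BijOn (rl pos) (Dl Fc) C

/-- barycentric coordinates -/
def iv (Fc : Set S → Prop) (pos : S → G) : G → S → ℝ := Function.invFunOn (rl pos) (Dl Fc)

/-- faces of the ordered product -/
def PF {S S' : Type} (Fc : Set S → Prop) (h : S → ℕ) (Fc' : Set S' → Prop) (h' : S' → ℕ)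
    (A : Set (S × S')) : Prop :=
  Fc (Prod.fst '' A) ∧ Fc' (Prod.snd '' A) ∧ ∀ a ∈ A, ∀ b ∈ A,
    (h a.1 ≤ h b.1 ∧ h' a.2 ≤ h' b.2) ∨ (h b.1 ≤ h a.1 ∧ h' b.2 ≤ h' a.2)

end Tri

/-- faces of the four-cycle -/
def KF (A : Set (Fin 4)) : Prop := ∃ i : Fin 4, A ⊆ {i, i + 1}

/-- heights on the four-cycle -/
def hK : Fin 4 → ℕ := ![0, 1, 2, 1]

/-- corners of the square -/
def vx : Fin 4 → R2 := ![(-1, -1), (1, -1), (1, 1), (-1, 1)]

/-- faces of the torus -/
def TF : Set Tor → Prop := PF KF hK KF hK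

/-- heights on the torus -/
def hT (a : Tor) : ℕ := hK a.1 + hK a.2

/-- positions on the torus -/
def pT (a : Tor) : R2 × R2 := (vx a.1, vx a.2)

/-- the direction of `z` (for `1/2 ≤ ‖z‖`) -/
def nz (z : R2) : R2 := (max ‖z‖ (1 / 2))⁻¹ • z

/-- the height over the core -/
def ht (z : R2) : ℝ := max 0 (‖z‖ - 1)

/-- the wall over the cone on the torus -/
def pV (v : VW) : Tor → ℝ := ht v.2 • iv TF pT (v.1.1, nz v.2)

/-! ### pieces -/

/-- a four-manifold with collared walls -/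
structure Wl (J : Type) where
  E : Type
  [top : TopologicalSpace E]
  [t2 : T2Space E]
  t : J → C(E, ℝ)
  t_nonneg : ∀ j x, 0 ≤ t j x
  dis : ∀ j j' x, t j x < 1 → t j' x < 1 → j = j'
  κ : J → C(VW × I, E)
  emb : ∀ j, IsEmbedding (κ j)
  tκ : ∀ j v s, t j (κ j (v, s)) = s
  κ_sur : ∀ j x, t j x < 1 → ∃ v s, κ j (v, s) = x
  man : ∀ x, (∀ j, 0 < t j x) → LE E4 x

attribute [instance] Wl.top Wl.t2

/-- a piece over the complex `Fc`, with wall tori `wl j` -/
structure Bk {S : Type} [Fintype S] (Fc : Set S → Prop) {J : Type} (wl : J → Tor → S)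
    extends Wl J where
  p : C(E, S → ℝ)
  p_mem : ∀ x, p x ∈ Cn Fc
  inj : ∀ x x', p x = p x' → p x ≠ 0 → x = x'
  sur : ∀ y ∈ Cn Fc, y ≠ 0 → ∃ x, p x = y
  cpt : ∀ R : ℝ, IsCompact {x | ‖p x‖ ≤ R}
  pκ : ∀ j v, p (κ j (v, 0)) = pu (wl j) (pV v)

/-- a geometric piece over `C`, with wall tori `τ j` -/
structure Gm {G : Type} [TopologicalSpace G] (C : Set G) {J : Type} (τ : J → R2 × R2 → G)
    extends Wl J where
  r : C(E, ℝ)
  r_nonneg : ∀ x, 0 ≤ r x
  π : C(E, G)
  π_mem : ∀ x, 0 < r x → π x ∈ C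
  inj : ∀ x x', r x = r x' → π x = π x' → 0 < r x → x = x'
  sur : ∀ c ∈ C, ∀ a : ℝ, 0 < a → ∃ x, r x = a ∧ π x = c
  cpt : ∀ R : ℝ, IsCompact {x | r x ≤ R}
  rκ : ∀ j v, r (κ j (v, 0)) = ht v.2
  πκ : ∀ j v, 1 < ‖v.2‖ → π (κ j (v, 0)) = τ j (v.1.1, nz v.2)

/-! ### coordinates near the bottom edge of the circle -/

/-- arc length from the middle of the bottom edge -/
def sc (k : R2) : ℝ := k.1 * (k.2 + 2)

/-- its inverse on `[-3, 3]` -/
def al (s : ℝ) : R2 := (max (-1) (min 1 s), max (-1) (|s| - 2))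

/-- `|sc k|`, and at least `2` on the top edge -/
def nb (k : R2) : ℝ := max |sc k| (k.2 + 1)

/-- exchanges top and bottom -/
def fl (k : R2) : R2 := (k.1, -k.2)

/-- second coordinate of a corner, as a vertex of the bottom edge -/
def ea : Fin 4 → Fin 4 := ![0, 0, 1, 1]

/-- first coordinate of a corner, as a vertex of the top edge -/
def eb : Fin 4 → Fin 4 := ![3, 2, 2, 3]

/-! ### the Borromean piece; `0` is the omitted type -/

/-- size in the cross section of a tube -/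
def nT (bot top : R2) : ℝ := max (nb (fl top)) (nb bot)

/-- the three tube functions of `(y₀, y₁, y₂)` -/
def nB (y : R2 × R2 × R2) : Fin 3 → ℝ := ![nT y.2.1 y.2.2, nT y.2.2 y.1, nT y.1 y.2.1]

/-- the three-torus without the tubes -/
def CB : Set (R2 × R2 × R2) := {y | ‖y.1‖ = 1 ∧ ‖y.2.1‖ = 1 ∧ ‖y.2.2‖ = 1 ∧ ∀ j, 1 ≤ nB y j}

/-- both ends of the bottom edge in the first, both ends of the top edge in the second coordinate -/
def Tb {S : Type} (f g : S → Fin 4) (A : Set S) : Prop :=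
  0 ∈ f '' A ∧ 1 ∈ f '' A ∧ 2 ∈ g '' A ∧ 3 ∈ g '' A

/-- its faces -/
def FB (A : Set (Fin 4 × Tor)) : Prop :=
  PF KF hK TF hT A ∧ ¬Tb (·.2.1) (·.2.2) A ∧ ¬Tb (·.2.2) (·.1) A ∧ ¬Tb (·.1) (·.2.1) A

/-- its vertices -/
def pB (a : Fin 4 × Tor) : R2 × R2 × R2 := (vx a.1, pT a.2)

/-- its wall tori, combinatorially: `(l, m)` for `0`, `(m, l)` for `1, 2` -/
def wB : Fin 3 → Tor → Fin 4 × Tor :=
  ![fun a => (a.2, ea a.1, eb a.1), fun a => (eb a.2, a.1, ea a.2), fun a => (ea a.2, eb a.2, a.1)]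

/-- its wall tori -/
def τB : Fin 3 → R2 × R2 → R2 × R2 × R2 :=
  ![fun a => (a.2, (a.1.2, -1), (a.1.1, 1)), fun a => ((a.2.1, 1), a.1, (a.2.2, -1)),
    fun a => ((a.2.2, -1), (a.2.1, 1), a.1)]

/-- four times the distance to the walls; the point is `(z, y₁, y₂)` -/
def tB (x : R2 × KK × KK) : Fin 3 → ℝ :=
  ![4 * (nB (nz x.1, x.2.1.1, x.2.2.1) 0 - 1),
    4 * max (nB (nz x.1, x.2.1.1, x.2.2.1) 1 - 1) (1 - ‖x.1‖),
    4 * max (nB (nz x.1, x.2.1.1, x.2.2.1) 2 - 1) (1 - ‖x.1‖)]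

/-- the space -/
abbrev EB : Type := {x : R2 × KK × KK // ∀ j, 0 ≤ tB x j}

/-! ### the Seifert pieces with `n` side holes; coordinates `(m, r, l)` -/

/-- walls: side holes, the outer wall (`true`), the central hole (`false`) -/
abbrev JS (n : ℕ) : Type := Fin n ⊕ Bool

/-- faces of the path -/
def IF (n : ℕ) (A : Set (Fin (2 * n + 2))) : Prop := ∃ i : ℕ, ∀ a ∈ A, a.1 = i ∨ a.1 = i + 1

/-- heights on the path: `0, 1, 2, 1, 2, 1, …` -/
def hI (n : ℕ) (a : Fin (2 * n + 2)) : ℕ := if a.1 = 0 then 0 else 2 - a.1 % 2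

/-- size in the cross section of the side hole `j` -/
def nS (j : ℕ) (m : R2) (r : ℝ) : ℝ := max |2 * r - (4 * j + 3)| (nb m)

/-- the planar surface times the circle -/
def CS (n : ℕ) : Set (R2 × ℝ × R2) :=
  {y | ‖y.1‖ = 1 ∧ 0 ≤ y.2.1 ∧ y.2.1 ≤ 2 * n + 1 ∧ ‖y.2.2‖ = 1 ∧ ∀ j : Fin n, 1 ≤ nS j y.1 y.2.1}

/-- its vertices, combinatorially -/
abbrev SS (n : ℕ) : Type := Fin 4 × Fin (2 * n + 2) × Fin 4

/-- its faces -/
def FS (n : ℕ) (A : Set (SS n)) : Prop :=
  PF KF hK (PF (IF n) (hI n) KF hK) (fun a => hI n a.1 + hK a.2) A ∧ ∀ j : Fin n,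
    ¬(0 ∈ (·.1) '' A ∧ 1 ∈ (·.1) '' A ∧ 2 * j.1 + 1 ∈ (·.2.1.1) '' A ∧ 2 * j.1 + 2 ∈ (·.2.1.1) '' A)

/-- its vertices -/
def pS (n : ℕ) (a : SS n) : R2 × ℝ × R2 := (vx a.1, (a.2.1.1 : ℝ), vx a.2.2)

/-- the boundary circles of the planar surface, combinatorially -/
def cS (n : ℕ) : JS n → Fin 4 → Fin 4 × Fin (2 * n + 2)
  | .inl j, q => (ea q, ⟨2 * j.1 + 1 + min 1 (3 - (eb q).1), by have := j.2; omega⟩)
  | .inr true, q => (q, 0)
  | .inr false, q => (q, Fin.last _)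

/-- the boundary circles of the planar surface -/
def γS (n : ℕ) : JS n → R2 → R2 × ℝ
  | .inl j, w => ((w.2, -1), (w.1 + (4 * j.1 + 3)) / 2)
  | .inr true, w => (w, 0)
  | .inr false, w => (w, 2 * n + 1)

/-- the wall tori, combinatorially: `(m, l)` if `ty j` (the fibre `l` is killed), else `(l, m)` -/
def wS (n : ℕ) (ty : JS n → Bool) (j : JS n) (a : Tor) : SS n :=
  if ty j then ((cS n j a.1).1, (cS n j a.1).2, a.2) else ((cS n j a.2).1, (cS n j a.2).2, a.1)

/-- the wall tori -/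
def τS (n : ℕ) (ty : JS n → Bool) (j : JS n) (a : R2 × R2) : R2 × ℝ × R2 :=
  if ty j then ((γS n j a.1).1, (γS n j a.1).2, a.2) else ((γS n j a.2).1, (γS n j a.2).2, a.1)

/-- signed size for the three kinds of boundary circles; `u = (2 n + 2 - r) m` -/
def dS (n : ℕ) : JS n → R2 → ℝ
  | .inl j, u => nS j (nz u) (2 * n + 2 - ‖u‖) - 1
  | .inr true, u => 1 - ‖u‖ / (2 * n + 2)
  | .inr false, u => ‖u‖ - 1

/-- multiples of the distance to the walls; the point is `(u, z)`, `z = ‖z‖ l` -/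
def tS (n : ℕ) (ty : JS n → Bool) (x : R2 × R2) (j : JS n) : ℝ :=
  if j = .inr true then
    (4 * n + 4) * (if ty j then dS n j x.1 else min (dS n j x.1) (2 * ‖x.2‖ - 1))
  else 4 * (if ty j then dS n j x.1 else max (dS n j x.1) (1 - ‖x.2‖))

/-- the space -/
abbrev ES (n : ℕ) (ty : JS n → Bool) : Type := {x : R2 × R2 // ∀ j, 0 ≤ tS n ty x j}

/-! ### assembly -/

/-- how copies of one (disconnected) piece are assembled: the wall `(e, b)` of the copy `f * g (e, b)`
is glued to the wall `(e, !b)` of the copy `f * g (e, !b)` -/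
structure Asm {S : Type} (Fc : Set S → Prop) {Ed : Type} (wl : Ed × Bool → Tor → S) {St : Type}
    (Ft : Set St → Prop) (F : Type) [Group F] (π : F → St → St) where
  g : Ed × Bool → F
  cp : F → S → St
  π_inj : ∀ f, Function.Injective (π f)
  cp_smul : ∀ f f' a, π f (cp f' a) = cp (f * f') a
  glue : ∀ f e t, cp (f * g (e, true)) (wl (e, true) t) = cp (f * g (e, false)) (wl (e, false) t)
  fin : ∀ s, {f | ∃ a, cp f a = s}.Finite
  wl_inj : ∀ j, Function.Injective (wl j)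
  full : ∀ j T, Fc (wl j '' T) → TF T
  injOn : ∀ f A, Fc A → InjOn (cp f) A
  face : ∀ A, Ft A ↔ ∃ f B, Fc B ∧ A = cp f '' B
  two : ∀ f f' A A', Fc A → Fc A' → A.Nonempty → cp f '' A = cp f' '' A' → (f = f' ∧ A = A') ∨
    ∃ f0 e b T, f = f0 * g (e, b) ∧ f' = f0 * g (e, !b) ∧ A = wl (e, b) '' T ∧ A' = wl (e, !b) '' T

end Crest.Agent.N233.Pc

end
private theorem rz_a65a17895a : type_of% @_root_.Crest.Agent.N233.Pc.cS.eq_1 := @_root_.Crest.Agent.N233.Pc.cS.eq_1 -- L227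
private theorem rz_fbcbe5ebaf : type_of% @_root_.Crest.Agent.N233.Pc.dS.eq_1 := @_root_.Crest.Agent.N233.Pc.dS.eq_1 -- L247
private theorem rz_87138b2f93 : type_of% @_root_.Crest.Agent.N233.Pc.«γS».eq_1 := @_root_.Crest.Agent.N233.Pc.«γS».eq_1 -- L233
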