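import Crest.Agent.N233.Ae.Ne
import Crest.Agent.N233.Hyp.Mir
import Crest.Agent.N233.Pc.GmB

-- ▼ part N233/Ae/Q
section

/-!
# Row 233 (helper61): null-homotopies modulo a relation

`Q Y A R`: the quotient `A / R` is contractible as seen by maps to `Y`; `Nq Y A R B`: the subset `B`
is null-homotopic in `A / R`.
-/

set_option autoImplicit false
open Set unitInterval Topology Filter

noncomputable section

namespace Crest.Agent.N233.Ae

variable {Z Y : Type} [TopologicalSpace Z] [TopologicalSpace Y]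

/-- concatenation of homotopies -/
def cat (H₁ H₂ : Z × I → Y) (q : Z × I) : Y :=
  if (q.2 : ℝ) ≤ 1 / 2 then H₁ (q.1, projIcc 0 1 zero_le_one (2 * q.2))
  else H₂ (q.1, projIcc 0 1 zero_le_one (2 * q.2 - 1))

omit [TopologicalSpace Z] [TopologicalSpace Y] in
theorem cat_zero (H₁ H₂ : Z × I → Y) (z : Z) : cat H₁ H₂ (z, 0) = H₁ (z, 0) := by
  simp [cat]

omit [TopologicalSpace Z] [TopologicalSpace Y] in
theorem cat_one (H₁ H₂ : Z × I → Y) (z : Z) : cat H₁ H₂ (z, 1) = H₂ (z, 1) := by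
  have : ¬ ((1 : ℝ) ≤ 2⁻¹) := by norm_num
  have h : (2 : ℝ) - 1 = 1 := by norm_num
  simp [cat, this, h]

omit [TopologicalSpace Z] [TopologicalSpace Y] in
theorem cat_ind {H₁ H₂ : Z × I → Y} {z z' : Z} {P : Y → Y → Prop}
    (h₁ : ∀ t, P (H₁ (z, t)) (H₁ (z', t))) (h₂ : ∀ t, P (H₂ (z, t)) (H₂ (z', t))) (t : I) :
    P (cat H₁ H₂ (z, t)) (cat H₁ H₂ (z', t)) := by
  unfold cat
  split_ifs
  exacts [h₁ _, h₂ _]

theorem cat_cont {H₁ H₂ : Z × I → Y} {A : Set Z} (c₁ : ContinuousOn H₁ (A ×ˢ univ))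
    (c₂ : ContinuousOn H₂ (A ×ˢ univ)) (h : ∀ z ∈ A, H₁ (z, 1) = H₂ (z, 0)) :
    ContinuousOn (cat H₁ H₂) (A ×ˢ univ) := by
  have p : Continuous (projIcc (0 : ℝ) 1 zero_le_one) := continuous_projIcc
  refine glue (A := {q | (q.2 : ℝ) ≤ 1 / 2}) (B := {q | 1 / 2 ≤ (q.2 : ℝ)})
    (isClosed_le (by fun_prop) continuous_const) (isClosed_le continuous_const (by fun_prop))
    (fun q _ => le_total (q.2 : ℝ) (1 / 2)) ?_ ?_
  · exact (c₁.comp (f := fun q : Z × I => (q.1, projIcc 0 1 zero_le_one (2 * (q.2 : ℝ))))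
      (by fun_prop) fun q hq => ⟨hq.1.1, trivial⟩).congr fun q hq => if_pos hq.2
  · refine (c₂.comp (f := fun q : Z × I => (q.1, projIcc 0 1 zero_le_one (2 * (q.2 : ℝ) - 1)))
      (by fun_prop) fun q hq => ⟨hq.1.1, trivial⟩).congr fun q hq => ?_
    by_cases k : (q.2 : ℝ) ≤ 1 / 2
    · have e : (q.2 : ℝ) = 1 / 2 := le_antisymm k hq.2
      have e1 : projIcc (0 : ℝ) 1 zero_le_one (2 * (1 / 2)) = 1 := by norm_num
      have e2 : projIcc (0 : ℝ) 1 zero_le_one (2 * (1 / 2) - 1) = 0 := by norm_num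
      simp only [cat, if_pos k, Function.comp, e, e1, e2, h _ hq.1.1, le_refl, if_true]
    · exact if_neg k

theorem NulM.of_htpy {f : Z → Y} {K : Set Z} {G : Z × I → Y} (c : ContinuousOn G (K ×ˢ univ))
    (h0 : ∀ z ∈ K, G (z, 0) = f z) (h : NulM (fun z => G (z, 1)) K) : NulM f K :=
  let ⟨H, y, a, b, d⟩ := h
  ⟨cat G H, y, cat_cont c a fun z hz => (b z hz).symm, fun z hz => (cat_zero ..).trans (h0 z hz),
    fun z hz => (cat_one ..).trans (d z hz)⟩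

theorem NulM.congr {f g : Z → Y} {K : Set Z} (h : NulM f K) (e : EqOn g f K) : NulM g K :=
  let ⟨H, y, a, b, d⟩ := h
  ⟨H, y, a, fun z hz => (b z hz).trans (e hz).symm, d⟩

theorem NulM.map {Y' : Type} [TopologicalSpace Y'] {f : Z → Y} {K : Set Z} (h : NulM f K)
    {φ : Y → Y'} (c : Continuous φ) : NulM (fun z => φ (f z)) K :=
  let ⟨H, y, a, b, d⟩ := h
  ⟨fun q => φ (H q), φ y, c.comp_continuousOn a, fun z hz => congrArg φ (b z hz),
    fun z hz => congrArg φ (d z hz)⟩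

/-- a set which deforms into a null-homotopic set is null-homotopic -/
theorem Nul.of_deform {K B : Set Y} (h : Nul B) {G : Y × I → Y} (c : ContinuousOn G (K ×ˢ univ))
    (h0 : ∀ z ∈ K, G (z, 0) = z) (h1 : ∀ z ∈ K, G (z, 1) ∈ B) : Nul K :=
  NulM.of_htpy c h0 (NulM.comp h (c.comp (by fun_prop) fun _ hz => ⟨hz, trivial⟩) h1)

/-- `g` respects `R` on `A` -/
def Resp (R : Z → Z → Prop) (A : Set Z) (g : Z → Y) : Prop :=
  ∀ x ∈ A, ∀ x' ∈ A, R x x' → g x = g x'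

/-- lying in a common member of the family `D i`, `i ∈ J` -/
def Rel {ι : Type} (D : ι → Set Z) (J : Set ι) (x x' : Z) : Prop := ∃ i ∈ J, x ∈ D i ∧ x' ∈ D i

variable (Y) in
/-- `A / R` is contractible -/
def Q (A : Set Z) (R : Z → Z → Prop) : Prop :=
  ∀ g : Z → Y, ContinuousOn g A → Resp R A g → ∃ (H : Z × I → Y) (y : Y),
    ContinuousOn H (A ×ˢ univ) ∧ (∀ z ∈ A, H (z, 0) = g z) ∧ (∀ z ∈ A, H (z, 1) = y) ∧
      ∀ t, Resp R A fun z => H (z, t)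

variable (Y) in
/-- `B` is null-homotopic in `A / R` -/
def Nq (A : Set Z) (R : Z → Z → Prop) (B : Set Z) : Prop :=
  ∀ g : Z → Y, ContinuousOn g A → Resp R A g → NulM g B

variable {A B C : Set Z} {R : Z → Z → Prop}

theorem Q.nq (h : Q Y A R) : Nq Y A R A := fun g c r =>
  let ⟨H, y, a, b, d, _⟩ := h g c r
  ⟨H, y, a, b, d⟩

theorem Nq.mono {A' B' : Set Z} {R' : Z → Z → Prop} (h : Nq Y A R B) (hA : A ⊆ A') (hB : B' ⊆ B)
    (hR : ∀ x ∈ A, ∀ x' ∈ A, R x x' → R' x x') : Nq Y A' R' B' := fun g c r =>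
  (h g (c.mono hA) fun x a x' b k => r x (hA a) x' (hA b) (hR x a x' b k)).mono hB

theorem Q.congr {R' : Z → Z → Prop} (h : Q Y A R) (e : ∀ x ∈ A, ∀ x' ∈ A, R x x' ↔ R' x x') :
    Q Y A R' := fun g c r =>
  let ⟨H, y, a, b, d, k⟩ := h g c fun x p x' q s => r x p x' q ((e x p x' q).1 s)
  ⟨H, y, a, b, d, fun t x p x' q s => k t x p x' q ((e x p x' q).2 s)⟩

theorem q_of_rel {x₀ : Z} (h₀ : x₀ ∈ A) (h : ∀ x ∈ A, x = x₀ ∨ R x x₀) : Q Y A R := fun g c r =>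
  ⟨fun q => g q.1, g x₀, c.comp continuousOn_fst fun _ k => k.1, fun _ _ => rfl,
    fun z hz => (h z hz).elim (congrArg g) (r z hz x₀ h₀), fun _ => r⟩

theorem nq_of_rel {x₀ : Z} (h₀ : x₀ ∈ A) (hB : B ⊆ A) (h : ∀ x ∈ B, x = x₀ ∨ R x x₀) :
    Nq Y A R B := fun g c r =>
  ⟨fun q => g q.1, g x₀, (c.mono hB).comp continuousOn_fst fun _ k => k.1, fun _ _ => rfl,
    fun z hz => (h z hz).elim (congrArg g) (r z (hB hz) x₀ h₀)⟩

/-- deformation of `A` into `B` respecting `R` -/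
theorem Q.deform (h : Q Y B R) (hB : B ⊆ A) {r : Z × I → Z} (c : ContinuousOn r (A ×ˢ univ))
    (m : ∀ x ∈ A, ∀ t, r (x, t) ∈ A) (h0 : ∀ x ∈ A, r (x, 0) = x ∨ R (r (x, 0)) x)
    (h1 : ∀ x ∈ A, r (x, 1) ∈ B)
    (hr : ∀ x ∈ A, ∀ x' ∈ A, R x x' → ∀ t, r (x, t) = r (x', t) ∨ R (r (x, t)) (r (x', t))) :
    Q Y A R := by
  intro g cg rg
  obtain ⟨H, y, a, b, d, k⟩ := h g (cg.mono hB) fun x p x' q => rg x (hB p) x' (hB q)
  have c1 : ContinuousOn (fun q : Z × I => r (q.1, 1)) (A ×ˢ univ) :=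
    c.comp (by fun_prop) fun _ hq => ⟨hq.1, trivial⟩
  refine ⟨cat (fun q => g (r q)) fun q => H (r (q.1, 1), q.2), y,
    cat_cont (cg.comp c fun q hq => m q.1 hq.1 q.2)
      (a.comp (c1.prodMk continuousOn_snd) fun q hq => ⟨h1 _ hq.1, trivial⟩)
      fun z hz => (b _ (h1 z hz)).symm,
    fun z hz => (cat_zero ..).trans ((h0 z hz).elim (congrArg g) (rg _ (m z hz 0) z hz)),
    fun z hz => (cat_one ..).trans (d _ (h1 z hz)), fun t x p x' q s => ?_⟩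
  refine cat_ind (P := Eq) (fun t => ?_) (fun t => ?_) t
  · exact (hr x p x' q s t).elim (congrArg g) (rg _ (m x p t) _ (m x' q t))
  · exact (hr x p x' q s 1).elim (congrArg fun u => H (u, t)) (k t _ (h1 x p) _ (h1 x' q))

/-- deformation of `B` inside `A` into `C` -/
theorem Nq.deform (h : Nq Y A R C) (hB : B ⊆ A) {r : Z × I → Z} (c : ContinuousOn r (B ×ˢ univ))
    (m : ∀ x ∈ B, ∀ t, r (x, t) ∈ A) (h0 : ∀ x ∈ B, r (x, 0) = x ∨ R (r (x, 0)) x)
    (h1 : ∀ x ∈ B, r (x, 1) ∈ C) : Nq Y A R B := fun g cg rg =>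
  NulM.of_htpy (G := fun q => g (r q)) (cg.comp c fun q hq => m q.1 hq.1 q.2)
    (fun z hz => (h0 z hz).elim (congrArg g) (rg _ (m z hz 0) z (hB hz)))
    ((h g cg rg).comp (c.comp (by fun_prop) fun _ hz => ⟨hz, trivial⟩) h1)


section Tr
variable {Z₀ : Type} [TopologicalSpace Z₀] [T2Space Z] {A₀ B₀ : Set Z₀} {R₀ : Z₀ → Z₀ → Prop}
  {φ : Z₀ → Z}

theorem exists_inv (hA : IsCompact A₀) (c : ContinuousOn φ A₀) (i : InjOn φ A₀) (x₀ : Z₀) :
    ∃ ψ : Z → Z₀, ContinuousOn ψ (φ '' A₀) ∧ ∀ x ∈ A₀, ψ (φ x) = x := by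
  have : Nonempty Z₀ := ⟨x₀⟩
  have : CompactSpace A₀ := isCompact_iff_compactSpace.1 hA
  have he : IsClosedEmbedding (A₀.domRestrict φ) :=
    c.domRestrict.isClosedEmbedding (injOn_iff_injective.1 i)
  refine ⟨Function.invFunOn φ A₀, continuousOn_iff_isClosed.2 fun t ht => ?_,
    fun x hx => i.leftInvOn_invFunOn hx⟩
  refine ⟨A₀.domRestrict φ '' (Subtype.val ⁻¹' t),
    he.isClosedMap _ (ht.preimage continuous_subtype_val), Subset.antisymm ?_ ?_⟩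
  · rintro _ ⟨k, x, hx, rfl⟩
    exact ⟨⟨⟨x, hx⟩, by rwa [mem_preimage, i.leftInvOn_invFunOn hx] at k, rfl⟩, x, hx, rfl⟩
  · rintro _ ⟨⟨x, k, rfl⟩, l⟩
    refine ⟨?_, l⟩
    show Function.invFunOn φ A₀ (φ x) ∈ t
    rw [i.leftInvOn_invFunOn x.2]; exact k

/-- transport from a compact model -/
theorem Q.map (h : Q Y A₀ R₀) (hA : IsCompact A₀) (c : ContinuousOn φ A₀) (i : InjOn φ A₀)
    (hR : ∀ x ∈ A₀, ∀ x' ∈ A₀, R₀ x x' ↔ R (φ x) (φ x')) (x₀ : Z₀) : Q Y (φ '' A₀) R := by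
  intro g cg rg
  obtain ⟨ψ, cψ, e⟩ := exists_inv hA c i x₀
  obtain ⟨H, y, a, b, d, k⟩ := h (fun x => g (φ x)) (cg.comp c (mapsTo_image _ _))
    fun x p x' q s => rg _ (mem_image_of_mem _ p) _ (mem_image_of_mem _ q) ((hR x p x' q).1 s)
  refine ⟨fun q => H (ψ q.1, q.2), y, a.comp ((cψ.comp continuousOn_fst fun _ k => k.1).prodMk
    continuousOn_snd) ?_, ?_, ?_, fun t => ?_⟩
  · rintro ⟨_, t⟩ ⟨⟨x, hx, rfl⟩, -⟩
    exact ⟨by simpa only [e x hx] using hx, trivial⟩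
  · rintro _ ⟨x, hx, rfl⟩; simp only [e x hx, b x hx]
  · rintro _ ⟨x, hx, rfl⟩; simp only [e x hx, d x hx]
  · rintro _ ⟨x, hx, rfl⟩ _ ⟨x', hx', rfl⟩ s
    simp only [e x hx, e x' hx']
    exact k t x hx x' hx' ((hR x hx x' hx').2 s)

theorem Nq.map (h : Nq Y A₀ R₀ B₀) (hA : IsCompact A₀) (hB : B₀ ⊆ A₀) (c : ContinuousOn φ A₀)
    (i : InjOn φ A₀) (hR : ∀ x ∈ A₀, ∀ x' ∈ A₀, R₀ x x' → R (φ x) (φ x')) (x₀ : Z₀) :
    Nq Y (φ '' A₀) R (φ '' B₀) := by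
  intro g cg rg
  obtain ⟨ψ, cψ, e⟩ := exists_inv hA c i x₀
  refine ((h (fun x => g (φ x)) (cg.comp c (mapsTo_image _ _))
    fun x p x' q s => rg _ (mem_image_of_mem _ p) _ (mem_image_of_mem _ q) (hR x p x' q s)).comp
      (cψ.mono (image_mono hB)) ?_).congr ?_
  · rintro _ ⟨x, hx, rfl⟩; rw [e x (hB hx)]; exact hx
  · rintro _ ⟨x, hx, rfl⟩; simp only [e x (hB hx)]

end Tr

variable [T2Space Z]

/-- finitely many disjoint null-homotopic walls can be made points -/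
theorem LNE.kill (h : LNE Y) (hA : IsCompact A) {ι : Type} {D : ι → Set Z} {J : Set ι}
    (hJ : J.Finite) (cD : ∀ i ∈ J, IsClosed (D i))
    (dD : ∀ i ∈ J, ∀ j ∈ J, ∀ x ∈ D i, x ∈ D j → i = j) {f : Z → Y} (c : ContinuousOn f A)
    (hn : ∀ i ∈ J, NulM f (A ∩ D i)) :
    ∃ G : Z × I → Y, ContinuousOn G (A ×ˢ univ) ∧ (∀ z ∈ A, G (z, 0) = f z) ∧
      Resp (Rel D J) A fun z => G (z, 1) := by
  classical
  choose H y a b d using hn
  set Φ : Z × I → Y := fun q =>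
    if k : ∃ i ∈ J, q.1 ∈ D i then H k.choose k.choose_spec.1 q else f q.1 with hΦ
  have e1 : ∀ i (hi : i ∈ J), ∀ q : Z × I, q.1 ∈ D i → Φ q = H i hi q := fun i hi q hq => by
    have k : ∃ i ∈ J, q.1 ∈ D i := ⟨i, hi, hq⟩
    simp only [hΦ, dif_pos k]
    congr 1
    · exact dD _ k.choose_spec.1 i hi _ k.choose_spec.2 hq
  have := hJ.to_subtype
  obtain ⟨G, p, q, r⟩ := h.hep' hA (hJ.isClosed_biUnion cD) c (H := Φ)
    (((locallyFinite_of_finite fun i : J => (A ∩ D i) ×ˢ (univ : Set I)).continuousOn_iUnion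
      (fun i => (hA.isClosed.inter (cD i i.2)).prod isClosed_univ)
      fun i => (a i i.2).congr fun q hq => e1 i i.2 q hq.1.2).mono fun q hq => by
        obtain ⟨i, hi, k⟩ := mem_iUnion₂.1 hq.1.2
        exact mem_iUnion.2 ⟨⟨i, hi⟩, ⟨hq.1.1, k⟩, trivial⟩)
    fun z hz => by
      obtain ⟨i, hi, k⟩ := mem_iUnion₂.1 hz.2
      rw [e1 i hi _ k, b i hi z ⟨hz.1, k⟩]
  refine ⟨G, p, q, fun x hx x' hx' ⟨i, hi, k, k'⟩ => ?_⟩
  show G (x, 1) = G (x', 1)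
  rw [r x ⟨hx, mem_iUnion₂.2 ⟨i, hi, k⟩⟩, r x' ⟨hx', mem_iUnion₂.2 ⟨i, hi, k'⟩⟩, e1 i hi _ k,
    e1 i hi _ k', d i hi x ⟨hx, k⟩, d i hi x' ⟨hx', k'⟩]

/-- the depth step -/
theorem Nq.nul (h : LNE Y) (hA : IsCompact A) (hB : B ⊆ A) {ι : Type} {D : ι → Set Z} {J : Set ι}
    (hq : Nq Y A (Rel D J) B) (hJ : J.Finite) (cD : ∀ i ∈ J, IsClosed (D i))
    (dD : ∀ i ∈ J, ∀ j ∈ J, ∀ x ∈ D i, x ∈ D j → i = j) {f : Z → Y} (c : ContinuousOn f A)
    (hn : ∀ i ∈ J, NulM f (A ∩ D i)) : NulM f B := by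
  obtain ⟨G, a, b, d⟩ := h.kill hA hJ cD dD c hn
  exact NulM.of_htpy (a.mono (prod_mono hB Subset.rfl)) (fun z hz => b z (hB hz))
    (hq _ (a.comp (by fun_prop) fun _ hz => ⟨hz, trivial⟩) d)

/-- gluing along a set which is collapsed on the `A` side -/
theorem Q.glue (h : LNE Y) {RA RB : Z → Z → Prop} (hA : Q Y A RA) (hB : Q Y B RB)
    (cA : IsCompact A) (cB : IsClosed B) {x₀ : Z} (a₀ : x₀ ∈ A) (b₀ : x₀ ∈ B)
    (hAB : ∀ x ∈ A, x ∈ B → RA x x₀) {L : Set Z} (cL : IsClosed L) (dL : Disjoint L B)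
    (hRA : ∀ x ∈ A, ∀ x' ∈ A, RA x x' → (x ∈ B ∧ x' ∈ B) ∨ (x ∈ L ∧ x' ∈ L ∧ R x x'))
    (hRB : ∀ x ∈ B, ∀ x' ∈ B, RB x x' → R x x')
    (hR : ∀ x ∈ A ∪ B, ∀ x' ∈ A ∪ B, R x x' → (x ∈ B ∧ x' ∈ B ∧ RB x x') ∨
      (x ∈ A ∧ x' ∈ A ∧ x ∈ L ∧ x' ∈ L ∧ RA x x')) : Q Y (A ∪ B) R := by
  classical
  intro g cg rg
  obtain ⟨H, y, a, b, d, k⟩ := hB g (cg.mono subset_union_right)
    fun x p x' q s => rg x (Or.inr p) x' (Or.inr q) (hRB x p x' q s)
  set Φ : Z × I → Y := fun q => if q.1 ∈ B then H q else g q.1 with hΦ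
  have e1 : ∀ q : Z × I, q.1 ∈ B → Φ q = H q := fun q hq => if_pos hq
  have e2 : ∀ q : Z × I, q.1 ∈ L → Φ q = g q.1 := fun q hq => if_neg (disjoint_left.1 dL hq)
  have cB' : IsClosed (B ×ˢ (univ : Set I)) := cB.prod isClosed_univ
  have cA' : IsClosed (A ×ˢ (univ : Set I)) := cA.isClosed.prod isClosed_univ
  obtain ⟨G, p, q, r⟩ := h.hep' cA (cB.union cL) (cg.mono subset_union_left) (H := Φ)
    (Ae.glue cB' (cL.prod isClosed_univ) (fun q hq => hq.1.2.imp (⟨·, trivial⟩) (⟨·, trivial⟩))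
      ((a.mono inter_subset_right).congr fun q hq => e1 q hq.2.1)
      ((cg.comp continuousOn_fst fun q hq => Or.inl hq.1.1.1).congr fun q hq => e2 q hq.2.1))
    fun z hz => hz.2.elim (fun k => (e1 _ k).trans (b z k)) (e2 (z, 0))
  have g1 : ∀ x ∈ A, x ∈ B → ∀ t, G (x, t) = H (x, t) := fun x p q t =>
    (r x ⟨p, Or.inl q⟩ t).trans (e1 _ q)
  have g2 : ∀ x ∈ A, x ∈ L → ∀ t, G (x, t) = g x := fun x p q t =>
    (r x ⟨p, Or.inr q⟩ t).trans (e2 _ q)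
  obtain ⟨H', y', a', b', d', k'⟩ := hA (fun z => G (z, 1))
    (p.comp (by fun_prop) fun _ hz => ⟨hz, trivial⟩) fun x u x' v s => by
      show G (x, 1) = G (x', 1)
      rcases hRA x u x' v s with ⟨i, j⟩ | ⟨i, j, l⟩
      · rw [g1 x u i, g1 x' v j, d x i, d x' j]
      · rw [g2 x u i, g2 x' v j, rg x (Or.inl u) x' (Or.inl v) l]
  set G₁ : Z × I → Y := fun q => if q.1 ∈ A then G q else H q with hG₁
  set G₂ : Z × I → Y := fun q => if q.1 ∈ A then H' q else H' (x₀, q.2) with hG₂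
  have u1 : ∀ q : Z × I, q.1 ∈ A → G₁ q = G q := fun q hq => if_pos hq
  have u2 : ∀ q : Z × I, q.1 ∈ B → G₁ q = H q := fun q hq => by
    by_cases i : q.1 ∈ A
    · exact (u1 q i).trans (g1 _ i hq _)
    · exact if_neg i
  have v1 : ∀ q : Z × I, q.1 ∈ A → G₂ q = H' q := fun q hq => if_pos hq
  have v2 : ∀ q : Z × I, q.1 ∈ B → G₂ q = H' (x₀, q.2) := fun q hq => by
    by_cases i : q.1 ∈ A
    · exact (v1 q i).trans (k' q.2 _ i _ a₀ (hAB _ i hq))
    · exact if_neg i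
  have cv : (A ∪ B) ×ˢ (univ : Set I) ⊆ A ×ˢ univ ∪ B ×ˢ univ :=
    fun q hq => hq.1.imp (⟨·, trivial⟩) (⟨·, trivial⟩)
  refine ⟨cat G₁ G₂, y', cat_cont
    (Ae.glue cA' cB' cv ((p.mono inter_subset_right).congr fun q hq => u1 q hq.2.1)
      ((a.mono inter_subset_right).congr fun q hq => u2 q hq.2.1))
    (Ae.glue cA' cB' cv ((a'.mono inter_subset_right).congr fun q hq => v1 q hq.2.1)
      ((a'.comp (f := fun q : Z × I => (x₀, q.2)) (by fun_prop) fun _ _ => ⟨a₀, trivial⟩).congr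
        fun q hq => v2 q hq.2.1)) fun z hz => ?_,
    fun z hz => (cat_zero ..).trans ?_, fun z hz => (cat_one ..).trans ?_, fun t x u x' v s => ?_⟩
  · rcases hz with hz | hz
    · rw [u1 _ hz, v1 _ hz, b' z hz]
    · rw [u2 _ hz, v2 _ hz, b' _ a₀, d z hz, g1 _ a₀ b₀, d _ b₀]
  · exact hz.elim (fun hz => (u1 _ hz).trans (q z hz)) fun hz => (u2 _ hz).trans (b z hz)
  · exact hz.elim (fun hz => (v1 _ hz).trans (d' z hz)) fun hz => (v2 _ hz).trans (d' _ a₀)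
  · rcases hR x u x' v s with ⟨i, j, l⟩ | ⟨i, j, i', j', l⟩
    · refine cat_ind (P := Eq) (fun t => ?_) (fun t => ?_) t
      · rw [u2 _ i, u2 _ j]; exact k t x i x' j l
      · rw [v2 _ i, v2 _ j]
    · refine cat_ind (P := Eq) (fun t => ?_) (fun t => ?_) t
      · rw [u1 _ i, u1 _ j, g2 x i i', g2 x' j j', rg x u x' v s]
      · rw [v1 _ i, v1 _ j]; exact k' t x i x' j l

end Crest.Agent.N233.Ae

end
end

-- ▼ part N233/Ae/Col
section

/-!
# Row 233 (helper61): a directed tree of spaces, each of which collapses onto its chosen walls, all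
walls null-homotopic: every finite union of pieces is null-homotopic.
-/

set_option autoImplicit false
open Set unitInterval Topology Filter Relation

noncomputable section

namespace Crest.Agent.N233.Ae

open Hyp

variable {N Ed : Type} (src tgt : Ed → N)

/-- finite subtrees containing `o` -/
inductive Sub (o : N) : Set N → Prop
  | base : Sub o {o}
  | add {S : Set N} {e : Ed} {u w : N} : Sub o S → End src tgt e u w → u ∈ S → w ∉ S →
      Sub o (S ∪ {w})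

variable {src tgt}

theorem Sub.finite {o : N} {S : Set N} (h : Sub src tgt o S) : S.Finite := by
  induction h with
  | base => exact finite_singleton _
  | add _ _ _ _ ih => exact ih.union (finite_singleton _)

theorem Sub.mem {o : N} {S : Set N} (h : Sub src tgt o S) : o ∈ S := by
  induction h with
  | base => rfl
  | add _ _ _ _ ih => exact Or.inl ih

theorem Sub.const {o : N} {S : Set N} (h : Sub src tgt o S) {H : Type} (c : N → H)
    (hc : ∀ e, src e ∈ S → tgt e ∈ S → c (tgt e) = c (src e)) : ∀ v ∈ S, c v = c o := by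
  induction h with
  | base => rintro _ rfl; rfl
  | @add S e u w _ he hu _ ih =>
    have ih' := ih fun e a b => hc e (Or.inl a) (Or.inl b)
    rintro v (hv | rfl)
    · exact ih' v hv
    · rw [← ih' u hu]
      rcases he with ⟨rfl, h2⟩ | ⟨rfl, h2⟩
      · rw [h2]; exact hc e (Or.inl hu) (Or.inr h2.symm)
      · rw [h2]; exact (hc e (Or.inr h2.symm) (Or.inl hu)).symm

theorem exists_sep (hc : Coc src tgt) (e : Ed) :
    ∃ c : N → Multiplicative ℤ, c (tgt e) ≠ c (src e) ∧ ∀ e' ≠ e, c (tgt e') = c (src e') := by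
  classical
  obtain ⟨c, h⟩ := hc (Multiplicative ℤ) fun e' => if e' = e then Multiplicative.ofAdd 1 else 1
  refine ⟨c, ?_, fun e' k => by rw [h, if_neg k, mul_one]⟩
  rw [h, if_pos rfl, Ne, mul_eq_left]
  decide

theorem src_ne_tgt (hc : Coc src tgt) (e : Ed) : src e ≠ tgt e := fun k =>
  let ⟨_, h, _⟩ := exists_sep hc e
  h (by rw [k])

theorem End.ne (hc : Coc src tgt) {e : Ed} {u w : N} (h : End src tgt e u w) : u ≠ w := by
  rcases h with ⟨rfl, rfl⟩ | ⟨rfl, rfl⟩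
  exacts [src_ne_tgt hc e, (src_ne_tgt hc e).symm]

theorem Sub.uniq (hc : Coc src tgt) {o : N} {S : Set N} (h : Sub src tgt o S) {e e' : Ed}
    {u u' w : N} (he : End src tgt e u w) (he' : End src tgt e' u' w) (hu : u ∈ S) (hu' : u' ∈ S)
    (hw : w ∉ S) : e' = e := by
  by_contra k
  obtain ⟨c, h1, h2⟩ := exists_sep hc e
  have h3 := h.const c fun d a b => h2 d fun k => hw (by
    subst k
    rcases he with ⟨-, rfl⟩ | ⟨-, rfl⟩
    exacts [b, a])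
  have h4 : c w = c u' := by
    rcases he' with ⟨rfl, rfl⟩ | ⟨rfl, rfl⟩
    exacts [h2 _ k, (h2 _ k).symm]
  rw [h3 u' hu', ← h3 u hu] at h4
  rcases he with ⟨rfl, rfl⟩ | ⟨rfl, rfl⟩
  exacts [h1 h4, h1 h4.symm]

theorem Sub.grow {o : N} {S : Set N} (h : Sub src tgt o S) {u t : N} (hu : u ∈ S)
    (p : ReflTransGen (fun u v => ∃ e, End src tgt e u v) u t) :
    ∃ S', Sub src tgt o S' ∧ S ⊆ S' ∧ t ∈ S' := by
  induction p with
  | refl => exact ⟨S, h, Subset.rfl, hu⟩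
  | @tail b t _ k ih =>
    obtain ⟨S', a, s, m⟩ := ih
    obtain ⟨e, he⟩ := k
    by_cases k : t ∈ S'
    · exact ⟨S', a, s, k⟩
    · exact ⟨_, a.add he m k, s.trans subset_union_left, Or.inr rfl⟩

theorem exists_sub (hc : ∀ t t', ReflTransGen (fun u v => ∃ e, End src tgt e u v) t t') (o : N)
    {S : Set N} (hS : S.Finite) : ∃ S', Sub src tgt o S' ∧ S ⊆ S' := by
  induction S, hS using Set.Finite.induction_on with
  | empty => exact ⟨_, .base, empty_subset _⟩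
  | @insert a s _ _ ih =>
    obtain ⟨S', h, k⟩ := ih
    obtain ⟨S'', h', k', m⟩ := h.grow h.mem (hc o a)
    exact ⟨S'', h', insert_subset m (k.trans k')⟩

/-- a directed tree of compact sets: the wall `D e` is chosen at `ch e` -/
structure TS {X : Type} [TopologicalSpace X] (src tgt ch ot : Ed → N) (E : N → Set X)
    (D : Ed → Set X) : Prop where
  coc : Coc src tgt
  conn : ∀ t t', ReflTransGen (fun u v => ∃ e, End src tgt e u v) t t'
  ends : ∀ e, End src tgt e (ch e) (ot e)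
  fin : ∀ v, {e | ch e = v}.Finite
  cE : ∀ v, IsCompact (E v)
  cD : ∀ e, IsClosed (D e)
  ne : ∀ e, (D e).Nonempty
  sub : ∀ e, D e ⊆ E (src e) ∩ E (tgt e)
  disj : ∀ e e', ∀ x ∈ D e, x ∈ D e' → e = e'
  inter : ∀ v w, v ≠ w → ∀ x ∈ E v, x ∈ E w → ∃ e, End src tgt e v w ∧ x ∈ D e

namespace TS
variable {X : Type} [TopologicalSpace X] {ch ot : Ed → N} {E : N → Set X} {D : Ed → Set X}
  (T : TS src tgt ch ot E D)
include T

theorem subE {e : Ed} {u w : N} (h : End src tgt e u w) : D e ⊆ E u := fun x hx => by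
  rcases h with ⟨rfl, -⟩ | ⟨rfl, -⟩
  exacts [(T.sub e hx).1, (T.sub e hx).2]

theorem ends' {e : Ed} {u w : N} (h : End src tgt e u w) :
    (ch e = u ∧ ot e = w) ∨ (ch e = w ∧ ot e = u) := by
  rcases h with ⟨rfl, rfl⟩ | ⟨rfl, rfl⟩ <;> rcases T.ends e with ⟨a, b⟩ | ⟨a, b⟩ <;> simp [a, b]

theorem of_mem {e : Ed} {v : N} {x : X} (h : x ∈ D e) (hv : x ∈ E v) : v = ch e ∨ v = ot e := by
  by_cases k : v = ch e
  · exact Or.inl k
  obtain ⟨e', a, b⟩ := T.inter v _ k x hv (T.subE (T.ends e) h)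
  rw [T.disj e' e x b h] at a
  exact (T.ends' a).elim (fun k' => absurd k'.1.symm k) fun k' => Or.inr k'.2.symm

omit T in
/-- the walls leaving `S` -/
def out (ch ot : Ed → N) (S : Set N) : Set Ed := {e | ch e ∈ S ∧ ot e ∉ S}

theorem out_fin {S : Set N} (hS : S.Finite) : (out ch ot S).Finite :=
  (hS.biUnion fun v _ => T.fin v).subset fun _ he => mem_iUnion₂.2 ⟨_, he.1, rfl⟩

theorem mem_of {S : Set N} {e : Ed} {x : X} (h : x ∈ D e) (hx : x ∈ ⋃ v ∈ S, E v) :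
    ch e ∈ S ∨ ot e ∈ S := by
  obtain ⟨v, hv, k⟩ := mem_iUnion₂.1 hx
  exact (T.of_mem h k).imp (fun (a : v = ch e) => a ▸ hv) fun (a : v = ot e) => a ▸ hv

variable [T2Space X] {Y : Type} [TopologicalSpace Y]

theorem q_union (h : LNE Y) {S S' : Set N} (hS : S.Finite) (hS' : S'.Finite) (d : Disjoint S S')
    {e₀ : Ed} (a₀ : ch e₀ ∈ S) (b₀ : ot e₀ ∈ S')
    (u : ∀ e v w, End src tgt e v w → v ∈ S → w ∈ S' → e = e₀)
    (q : Q Y (⋃ v ∈ S, E v) (Rel D (out ch ot S)))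
    (q' : Q Y (⋃ v ∈ S', E v) (Rel D (out ch ot S'))) :
    Q Y (⋃ v ∈ S ∪ S', E v) (Rel D (out ch ot (S ∪ S'))) := by
  obtain ⟨x₀, h₀⟩ := T.ne e₀
  have dj : ∀ {v}, v ∈ S → v ∉ S' := fun k => disjoint_left.1 d k
  have i1 : ∀ {S : Set N} {e x}, ch e ∈ S → x ∈ D e → x ∈ ⋃ v ∈ S, E v := fun k hx =>
    mem_iUnion₂.2 ⟨_, k, T.subE (T.ends _) hx⟩
  have i2 : ∀ {S : Set N} {e x}, ot e ∈ S → x ∈ D e → x ∈ ⋃ v ∈ S, E v := fun k hx =>
    mem_iUnion₂.2 ⟨_, k, T.subE (T.ends _).symm hx⟩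
  have fL : (out ch ot S ∩ {e | ot e ∉ S'}).Finite := (T.out_fin hS).inter_of_left _
  rw [biUnion_union]
  refine Q.glue h q q' (hS.isCompact_biUnion fun v _ => T.cE v)
    (hS'.isClosed_biUnion fun v _ => (T.cE v).isClosed) (i1 a₀ h₀) (i2 b₀ h₀) (fun x a b => ?_)
    (L := ⋃ e ∈ out ch ot S ∩ {e | ot e ∉ S'}, D e) (fL.isClosed_biUnion fun e _ => T.cD e)
    (disjoint_left.2 fun x a b => ?_) (fun x _ x' _ ⟨e, he, p, p'⟩ => ?_)
    (fun x _ x' _ ⟨e, he, p, p'⟩ => ?_) fun x _ x' _ ⟨e, he, p, p'⟩ => ?_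
  · obtain ⟨v, hv, a⟩ := mem_iUnion₂.1 a
    obtain ⟨w, hw, b⟩ := mem_iUnion₂.1 b
    obtain ⟨e, he, k⟩ := T.inter v w (fun k => dj hv (k ▸ hw)) x a b
    exact ⟨e₀, ⟨a₀, fun k => dj k b₀⟩, u e v w he hv hw ▸ k, h₀⟩
  · obtain ⟨e, he, a⟩ := mem_iUnion₂.1 a
    exact (T.mem_of a b).elim (dj he.1.1) he.2
  · by_cases k : ot e ∈ S'
    · exact Or.inl ⟨i2 k p, i2 k p'⟩
    · exact Or.inr ⟨mem_iUnion₂.2 ⟨e, ⟨he, k⟩, p⟩, mem_iUnion₂.2 ⟨e, ⟨he, k⟩, p'⟩, e,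
        ⟨Or.inl he.1, fun k' => k'.elim he.2 k⟩, p, p'⟩
  · refine ⟨e, ⟨Or.inr he.1, fun k' => k'.elim (fun k => ?_) he.2⟩, p, p'⟩
    have := u e _ _ (T.ends e).symm k he.1
    subst this
    exact dj a₀ he.1
  · rcases he.1 with k | k
    · have m : e ∈ out ch ot S ∩ {e | ot e ∉ S'} :=
        ⟨⟨k, fun k' => he.2 (Or.inl k')⟩, fun k' => he.2 (Or.inr k')⟩
      exact Or.inr ⟨i1 k p, i1 k p', mem_iUnion₂.2 ⟨e, m, p⟩, mem_iUnion₂.2 ⟨e, m, p'⟩, e, m.1,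
        p, p'⟩
    · exact Or.inl ⟨i1 k p, i1 k p', e, ⟨k, fun k' => he.2 (Or.inr k')⟩, p, p'⟩

theorem q_sub (h : LNE Y) (hq : ∀ v, Q Y (E v) (Rel D {e | ch e = v})) {o : N} {S : Set N}
    (hS : Sub src tgt o S) : Q Y (⋃ v ∈ S, E v) (Rel D (out ch ot S)) := by
  have one : ∀ v, Q Y (⋃ w ∈ ({v} : Set N), E w) (Rel D (out ch ot {v})) := fun v => by
    have : out ch ot {v} = {e | ch e = v} := Set.ext fun e =>
      ⟨fun k => k.1, fun k => ⟨k, fun k' => End.ne T.coc (T.ends e) (k.trans k'.symm)⟩⟩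
    rw [this, biUnion_singleton]
    exact hq v
  induction hS with
  | base => exact one o
  | @add S e u w hS he hu hw ih =>
    have d : Disjoint S {w} := disjoint_singleton_right.2 hw
    rcases T.ends' he with ⟨a, b⟩ | ⟨a, b⟩
    · exact T.q_union h hS.finite (finite_singleton _) d (e₀ := e) (a ▸ hu) b
        (fun e' v w' k hv hw' => hS.uniq T.coc he (hw' ▸ k) hu hv hw) ih (one w)
    · rw [union_comm]
      exact T.q_union h (finite_singleton _) hS.finite d.symm (e₀ := e) a (b ▸ hu)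
        (fun e' v w' k hv hw' => hS.uniq T.coc he (hv ▸ k.symm) hu hw' hw) (one w) ih

/-- depth step: a subset of a piece which is null-homotopic modulo null-homotopic walls -/
theorem nul_of_nq (h : LNE X) {v : N} {J : Set Ed} (hJ : J.Finite) (hn : ∀ e ∈ J, Nul (D e))
    {B : Set X} (hB : B ⊆ E v) (hq : Nq X (E v) (Rel D J) B) : Nul B :=
  hq.nul h (T.cE v) hB hJ (fun e _ => T.cD e) (fun e _ e' _ => T.disj e e') continuousOn_id
    fun e he => (hn e he).mono inter_subset_right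

theorem nul_fin [Nonempty N] (h : LNE X) (hq : ∀ v, Q X (E v) (Rel D {e | ch e = v}))
    (hn : ∀ e, Nul (D e)) {S : Set N} (hS : S.Finite) : Nul (⋃ v ∈ S, E v) := by
  obtain ⟨S', a, b⟩ := exists_sub T.conn (Classical.arbitrary N) hS
  exact ((T.q_sub h hq a).nq.nul h (a.finite.isCompact_biUnion fun v _ => T.cE v) Subset.rfl
    (T.out_fin a.finite) (fun e _ => T.cD e) (fun e _ e' _ => T.disj e e') continuousOn_id
    fun e _ => (hn e).mono inter_subset_right).mono (biUnion_subset_biUnion_left b)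

/-- **collapse**: `r` pushes the space into the locally finite union of the pieces -/
theorem null [Nonempty N] (h : LNE X) (hq : ∀ v, Q X (E v) (Rel D {e | ch e = v}))
    (hn : ∀ e, Nul (D e)) (lf : LocallyFinite E) {r : X × I → X} (c : Continuous r)
    (r0 : ∀ x, r (x, 0) = x) (r1 : ∀ x, ∃ v, r (x, 1) ∈ E v) : Null X := fun K hK => by
  have k := lf.finite_nonempty_inter_compact
    (hK.image (f := fun x => r (x, 1)) (by fun_prop))
  refine (T.nul_fin h hq hn k).of_deform c.continuousOn (fun x _ => r0 x) fun x hx => ?_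
  obtain ⟨v, hv⟩ := r1 x
  exact mem_iUnion₂.2 ⟨v, ⟨_, hv, mem_image_of_mem _ hx⟩, hv⟩

end TS

end Crest.Agent.N233.Ae

end
end

-- ▼ part N233/Ae/Q2
section

/-!
# Row 233 (helper61): more rules for `Q` and `Nq`: enlarging walls, filling, pulling back
-/

set_option autoImplicit false
open Set unitInterval Topology Filter

noncomputable section

namespace Crest.Agent.N233.Ae

variable {Z Y : Type} [TopologicalSpace Z] [TopologicalSpace Y]

/-- `A` deforms in itself into `B` -/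
def Df (A B : Set Z) : Prop :=
  ∃ d : Z × I → Z, ContinuousOn d (A ×ˢ univ) ∧ (∀ x ∈ A, ∀ t, d (x, t) ∈ A) ∧
    (∀ x ∈ A, d (x, 0) = x) ∧ ∀ x ∈ A, d (x, 1) ∈ B

theorem Df.trans {A B C : Set Z} (h : Df A B) (s : B ⊆ A) (h' : Df B C) : Df A C := by
  obtain ⟨d, a, b, c, e⟩ := h
  obtain ⟨d', a', b', c', e'⟩ := h'
  have c1 : ContinuousOn (fun q : Z × I => d (q.1, 1)) (A ×ˢ univ) :=
    a.comp (by fun_prop) fun _ hq => ⟨hq.1, trivial⟩
  refine ⟨cat d fun q => d' (d (q.1, 1), q.2), cat_cont a (a'.comp (c1.prodMk continuousOn_snd)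
    fun q hq => ⟨e _ hq.1, trivial⟩) fun z hz => (c' _ (e z hz)).symm, fun x hx t => ?_,
    fun x hx => (cat_zero ..).trans (c x hx), fun x hx => (cat_one d _ x).symm ▸ e' _ (e x hx)⟩
  exact cat_ind (P := fun a _ => a ∈ A) (z' := x) (b x hx) (fun t => s (b' _ (e x hx) t)) t

theorem Df.mono {A B C : Set Z} (h : Df A B) (s : B ⊆ C) : Df A C :=
  let ⟨d, a, b, c, e⟩ := h
  ⟨d, a, b, c, fun x hx => s (e x hx)⟩

theorem Df.nq {A B C : Set Z} {R : Z → Z → Prop} (h : Df B C) (s : B ⊆ A) (q : Nq Y A R C) :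
    Nq Y A R B :=
  let ⟨_, a, b, c, e⟩ := h
  q.deform s a (fun x hx t => s (b x hx t)) (fun x hx => Or.inl (c x hx)) e

theorem Df.q {A B : Set Z} (h : Df A B) (s : B ⊆ A) (q : Q Y B fun _ _ => False) :
    Q Y A fun _ _ => False :=
  let ⟨_, a, b, c, e⟩ := h
  q.deform s a b (fun x hx => Or.inl (c x hx)) e fun _ _ _ _ k => k.elim

theorem df_star {V : Type} [NormedAddCommGroup V] [NormedSpace ℝ V] {A : Set V} {x₀ : V}
    (h : StarConvex ℝ x₀ A) : Df A {x₀} :=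
  ⟨fun q => (q.2 : ℝ) • x₀ + (1 - (q.2 : ℝ)) • q.1, by fun_prop,
    fun x hx t => h hx t.2.1 (sub_nonneg.2 t.2.2) (by ring), fun x _ => by simp, fun x _ => by simp⟩

theorem q_pt (x₀ : Z) (R : Z → Z → Prop) : Q Y {x₀} R := q_of_rel rfl fun _ hx => Or.inl hx

variable [T2Space Z]

/-- walls may be enlarged by sets that deform into them -/
theorem Q.enlarge (h : LNE Y) {A : Set Z} (hA : IsCompact A) {ι : Type} {D D' : ι → Set Z}
    {J : Set ι} (hJ : J.Finite) (cD : ∀ i ∈ J, IsClosed (D i))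
    (dD : ∀ i ∈ J, ∀ j ∈ J, ∀ x ∈ A, x ∈ D i → x ∈ D j → i = j) (s : ∀ i ∈ J, A ∩ D' i ⊆ D i)
    (d : ∀ i ∈ J, Df (A ∩ D i) (D' i)) (q : Q Y A (Rel D' J)) : Q Y A (Rel D J) := by
  classical
  intro g cg rg
  obtain ⟨H, y, a, b, c, k⟩ := q g cg fun x p x' p' ⟨i, hi, u, u'⟩ =>
    rg x p x' p' ⟨i, hi, s i hi ⟨p, u⟩, s i hi ⟨p', u'⟩⟩
  choose r r1 r2 r3 r4 using d
  set Φ : (Z × I) × I → Y := fun w => if k : ∃ i ∈ J, w.1.1 ∈ A ∩ D i then
    H (r k.choose k.choose_spec.1 (w.1.1, w.2), w.1.2) else H w.1 with hΦ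
  have e1 : ∀ i (hi : i ∈ J) (w : (Z × I) × I), w.1.1 ∈ A ∩ D i →
      Φ w = H (r i hi (w.1.1, w.2), w.1.2) := fun i hi w hw => by
    have k : ∃ i ∈ J, w.1.1 ∈ A ∩ D i := ⟨i, hi, hw⟩
    simp only [hΦ, dif_pos k]
    congr 3
    exact dD _ k.choose_spec.1 i hi _ hw.1 k.choose_spec.2.2 hw.2
  have e2 : ∀ w : (Z × I) × I, w.1.1 ∈ A → (w.1.2 = 0 ∨ w.1.2 = 1) → Φ w = H w.1 :=
    fun ⟨⟨z, t⟩, u⟩ hz ht => by
      by_cases k : ∃ i ∈ J, z ∈ A ∩ D i
      · obtain ⟨i, hi, k⟩ := k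
        have m := r2 i hi z k u
        rw [e1 i hi _ k]
        rcases ht with rfl | rfl
        · exact ((b _ m.1).trans (rg _ m.1 z hz ⟨i, hi, m.2, k.2⟩)).trans (b z hz).symm
        · exact (c _ m.1).trans (c z hz).symm
      · exact dif_neg k
  have := hJ.to_subtype
  have cl : ∀ i : J, IsClosed {w : (Z × I) × I | w.1.1 ∈ A ∩ D i} := fun i =>
    (hA.isClosed.inter (cD i i.2)).preimage (by fun_prop)
  have k0 : IsClosed {w : Z × I | w.2 = 0 ∨ w.2 = 1} :=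
    (isClosed_eq continuous_snd continuous_const).union (isClosed_eq continuous_snd continuous_const)
  have k1 : IsClosed {w : Z × I | w.1 ∈ ⋃ i ∈ J, D i} :=
    (hJ.isClosed_biUnion cD).preimage continuous_fst
  obtain ⟨G, p, q, u⟩ := h.hep' (hA.prod isCompact_univ) (k0.union k1) a (H := Φ)
    (Ae.glue (k0.preimage continuous_fst) (k1.preimage continuous_fst) (fun w hw => hw.1.2)
      ((a.comp continuousOn_fst fun w hw => hw.1.1.1).congr fun w hw => e2 w hw.1.1.1.1 hw.2)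
      (((locallyFinite_of_finite _).continuousOn_iUnion cl fun i =>
        (a.comp (f := fun w : (Z × I) × I => (r i i.2 (w.1.1, w.2), w.1.2))
          (((r1 i i.2).comp (by fun_prop) fun w hw => ⟨hw, trivial⟩).prodMk (by fun_prop))
          fun w hw => ⟨(r2 i i.2 _ hw _).1, trivial⟩).congr fun w hw => e1 i i.2 w hw).mono
        fun w hw => by
          obtain ⟨i, hi, k⟩ := mem_iUnion₂.1 hw.2
          exact mem_iUnion.2 ⟨⟨i, hi⟩, hw.1.1.1.1, k⟩))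
    fun w hw => hw.2.elim (e2 (w, 0) hw.1.1) fun k => by
      obtain ⟨i, hi, k⟩ := mem_iUnion₂.1 k
      rw [e1 i hi (w, 0) ⟨hw.1.1, k⟩, r3 i hi _ ⟨hw.1.1, k⟩]
  refine ⟨fun w => G (w, 1), y, p.comp (by fun_prop) fun w hw => ⟨hw, trivial⟩, fun z hz => ?_,
    fun z hz => ?_, fun t x p x' p' ⟨i, hi, v, v'⟩ => ?_⟩
  · exact (u (z, 0) ⟨⟨hz, trivial⟩, Or.inl (Or.inl rfl)⟩ 1).trans
      ((e2 ((z, 0), 1) hz (Or.inl rfl)).trans (b z hz))
  · exact (u (z, 1) ⟨⟨hz, trivial⟩, Or.inl (Or.inr rfl)⟩ 1).trans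
      ((e2 ((z, 1), 1) hz (Or.inr rfl)).trans (c z hz))
  · show G ((x, t), 1) = G ((x', t), 1)
    rw [u (x, t) ⟨⟨p, trivial⟩, Or.inr (mem_iUnion₂.2 ⟨i, hi, v⟩)⟩,
      u (x', t) ⟨⟨p', trivial⟩, Or.inr (mem_iUnion₂.2 ⟨i, hi, v'⟩)⟩, e1 i hi _ ⟨p, v⟩,
      e1 i hi _ ⟨p', v'⟩]
    exact k t _ (r2 i hi x ⟨p, v⟩ 1).1 _ (r2 i hi x' ⟨p', v'⟩ 1).1
      ⟨i, hi, r4 i hi x ⟨p, v⟩, r4 i hi x' ⟨p', v'⟩⟩

/-- disjoint contractible subsets of a contractible set -/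
theorem q_contr (h : LNE Y) {A : Set Z} (hA : IsCompact A) {ι : Type} {D : ι → Set Z}
    {J : Set ι} (hJ : J.Finite) (cD : ∀ i ∈ J, IsClosed (D i))
    (dD : ∀ i ∈ J, ∀ j ∈ J, ∀ x ∈ A, x ∈ D i → x ∈ D j → i = j) (b : ι → Z)
    (hb : ∀ i ∈ J, b i ∈ D i) (d : ∀ i ∈ J, Df (A ∩ D i) {b i}) (q : Q Y A fun _ _ => False) :
    Q Y A (Rel D J) := by
  refine Q.enlarge h hA hJ cD dD (D' := fun i => {b i}) (fun i hi x hx => hx.2 ▸ hb i hi) d ?_
  intro g cg _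
  obtain ⟨H, y, a, b, c, -⟩ := q g cg fun _ _ _ _ k => k.elim
  exact ⟨H, y, a, b, c, fun t x _ x' _ ⟨i, _, u, u'⟩ => by rw [show x = x' from u.trans u'.symm]⟩

omit [T2Space Z] in
/-- filling the walls -/
theorem Q.fill {A A' : Set Z} {ι : Type} {D N : ι → Set Z} {J : Set ι} (q : Q Y A' (Rel N J))
    (hJ : J.Finite) (cA : IsClosed A) (cN : ∀ i ∈ J, IsClosed (N i)) (s : A ⊆ A')
    (cov : A' ⊆ A ∪ ⋃ i ∈ J, N i)
    (dN : ∀ i ∈ J, ∀ j ∈ J, ∀ x, x ∈ N i → x ∈ N j → i = j)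
    (e : ∀ i ∈ J, ∀ x ∈ A, x ∈ N i ↔ x ∈ D i) (b : ι → Z) (hb : ∀ i ∈ J, b i ∈ A ∩ D i) :
    Q Y A (Rel D J) := by
  classical
  intro g cg rg
  set g' : Z → Y := fun x => if k : ∃ i ∈ J, x ∈ N i then g (b k.choose) else g x with hg'
  have e1 : ∀ i ∈ J, ∀ x ∈ N i, g' x = g (b i) := fun i hi x hx => by
    have k : ∃ i ∈ J, x ∈ N i := ⟨i, hi, hx⟩
    simp only [hg', dif_pos k]
    rw [dN _ k.choose_spec.1 i hi x k.choose_spec.2 hx]
  have e2 : ∀ x ∈ A, g' x = g x := fun x hx => by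
    by_cases k : ∃ i ∈ J, x ∈ N i
    · obtain ⟨i, hi, k⟩ := k
      rw [e1 i hi x k]
      exact rg _ (hb i hi).1 x hx ⟨i, hi, (hb i hi).2, (e i hi x hx).1 k⟩
    · exact dif_neg k
  have := hJ.to_subtype
  have cg' : ContinuousOn g' (⋃ i ∈ J, N i) := by
    rw [biUnion_eq_iUnion]
    exact (locallyFinite_of_finite _).continuousOn_iUnion (fun i => cN i i.2)
      fun i => continuousOn_const.congr (e1 i i.2)
  obtain ⟨H, y, a, b, c, k⟩ := q g' (((cg.congr e2).union_of_isClosed cg' cA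
    (hJ.isClosed_biUnion cN)).mono cov) fun x _ x' _ ⟨i, hi, u, u'⟩ =>
      (e1 i hi x u).trans (e1 i hi x' u').symm
  exact ⟨H, y, a.mono (prod_mono s Subset.rfl), fun z hz => (b z (s hz)).trans (e2 z hz),
    fun z hz => c z (s hz), fun t x p x' p' ⟨i, hi, u, u'⟩ =>
      k t x (s p) x' (s p') ⟨i, hi, (e i hi x p).2 u, (e i hi x' p').2 u'⟩⟩

section Tr
variable {Z₀ : Type} [TopologicalSpace Z₀] {A₀ B₀ : Set Z₀} {R₀ : Z₀ → Z₀ → Prop}
  {R : Z → Z → Prop} {φ : Z₀ → Z}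

theorem Q.comap (h : Q Y (φ '' A₀) R) (hA : IsCompact A₀) (c : ContinuousOn φ A₀) (i : InjOn φ A₀)
    (hR : ∀ x ∈ A₀, ∀ x' ∈ A₀, R₀ x x' ↔ R (φ x) (φ x')) (x₀ : Z₀) : Q Y A₀ R₀ := by
  intro g cg rg
  obtain ⟨ψ, cψ, e⟩ := exists_inv hA c i x₀
  obtain ⟨H, y, a, b, d, k⟩ := h (fun z => g (ψ z))
    (cg.comp cψ (by rintro _ ⟨x, hx, rfl⟩; rw [e x hx]; exact hx)) (by
      rintro _ ⟨x, hx, rfl⟩ _ ⟨x', hx', rfl⟩ s
      simp only [e x hx, e x' hx']
      exact rg x hx x' hx' ((hR x hx x' hx').2 s))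
  exact ⟨fun q => H (φ q.1, q.2), y, a.comp ((c.comp continuousOn_fst fun _ k => k.1).prodMk
    continuousOn_snd) fun q hq => ⟨mem_image_of_mem _ hq.1, trivial⟩,
    fun z hz => (b _ (mem_image_of_mem _ hz)).trans (congrArg g (e z hz)),
    fun z hz => d _ (mem_image_of_mem _ hz), fun t x p x' p' s =>
      k t _ (mem_image_of_mem _ p) _ (mem_image_of_mem _ p') ((hR x p x' p').1 s)⟩

theorem Nq.comap {B : Set Z} (h : Nq Y (φ '' A₀) R B) (hA : IsCompact A₀) (hB : B₀ ⊆ A₀)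
    (m : MapsTo φ B₀ B) (c : ContinuousOn φ A₀) (i : InjOn φ A₀)
    (hR : ∀ x ∈ A₀, ∀ x' ∈ A₀, R (φ x) (φ x') → R₀ x x') (x₀ : Z₀) : Nq Y A₀ R₀ B₀ := by
  intro g cg rg
  obtain ⟨ψ, cψ, e⟩ := exists_inv hA c i x₀
  refine ((h (fun z => g (ψ z)) (cg.comp cψ (by rintro _ ⟨x, hx, rfl⟩; rw [e x hx]; exact hx)) (by
      rintro _ ⟨x, hx, rfl⟩ _ ⟨x', hx', rfl⟩ s
      simp only [e x hx, e x' hx']
      exact rg x hx x' hx' (hR x hx x' hx' s))).comp (c.mono hB) m).congr fun x hx => ?_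
  simp only [e x (hB hx)]

end Tr

end Crest.Agent.N233.Ae

end
end

-- ▼ part N233/Ae/Tr
section

/-!
# Row 233 (helper61): the tree of Borromean and Seifert pieces over a free group; transfer of trees
-/

set_option autoImplicit false
open Set Relation

noncomputable section

namespace Crest.Agent.N233.Ae

open Hyp

section
variable {N Ed N' Ed' : Type} {src tgt : Ed → N} {src' tgt' : Ed' → N'} {φ : N → N'} {ψ : Ed → Ed'}

theorem coc_pull (h : Coc src' tgt') (hψ : Function.Injective ψ)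
    (he : ∀ e, End src' tgt' (ψ e) (φ (src e)) (φ (tgt e))) : Coc src tgt := by
  classical
  intro H _ g
  obtain ⟨c, hc⟩ := h H (Function.extend ψ
    (fun e => if φ (src e) = src' (ψ e) then g e else (g e)⁻¹) 1)
  refine ⟨fun n => c (φ n), fun e => ?_⟩
  have k := hc (ψ e)
  rw [hψ.extend_apply] at k
  rcases he e with ⟨a, b⟩ | ⟨a, b⟩
  · rw [if_pos a] at k
    show c (φ _) = c (φ _) * _
    rw [a, b, k]
  · rw [if_neg (a ▸ (src_ne_tgt h _).symm)] at k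
    show c (φ _) = c (φ _) * _
    rw [a, b, k, inv_mul_cancel_right]

theorem conn_pull (h : ∀ t t', ReflTransGen (fun u v => ∃ e, End src' tgt' e u v) t t')
    (hφ : Function.Injective φ) (hψ : Function.Surjective ψ)
    (he : ∀ e, End src' tgt' (ψ e) (φ (src e)) (φ (tgt e))) (t t' : N) :
    ReflTransGen (fun u v => ∃ e, End src tgt e u v) t t' := by
  have key : ∀ u', ReflTransGen (fun u v => ∃ e, End src' tgt' e u v) (φ t) u' →
      ∃ u, φ u = u' ∧ ReflTransGen (fun u v => ∃ e, End src tgt e u v) t u := fun u' p => by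
    induction p with
    | refl => exact ⟨t, rfl, .refl⟩
    | tail _ k ih =>
      obtain ⟨u, rfl, p⟩ := ih
      obtain ⟨e', k⟩ := k
      obtain ⟨e, rfl⟩ := hψ e'
      rcases k with ⟨a, b⟩ | ⟨a, b⟩ <;> rcases he e with ⟨c, d⟩ | ⟨c, d⟩
      · exact ⟨tgt e, d.trans b.symm, p.tail ⟨e, Or.inl ⟨hφ (a.trans c.symm), rfl⟩⟩⟩
      · exact ⟨src e, c.trans b.symm, p.tail ⟨e, Or.inr ⟨hφ (a.trans d.symm), rfl⟩⟩⟩
      · exact ⟨src e, c.trans b.symm, p.tail ⟨e, Or.inr ⟨hφ (a.trans d.symm), rfl⟩⟩⟩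
      · exact ⟨tgt e, d.trans b.symm, p.tail ⟨e, Or.inl ⟨hφ (a.trans c.symm), rfl⟩⟩⟩
  obtain ⟨u, a, p⟩ := key _ (h (φ t) (φ t'))
  exact hφ a ▸ p

end

variable {ι : Type}

/-- `(v, i, false)` joins `B v` to `S v i`, `(v, i, true)` joins `S v i` to `S (v * x i) i` -/
def src3 : FreeGroup ι × ι × Bool → FreeGroup ι × Option ι
  | (v, _, false) => (v, none)
  | (v, i, true) => (v, some i)

/-- the other end -/
def tgt3 : FreeGroup ι × ι × Bool → FreeGroup ι × Option ι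
  | (v, i, false) => (v, some i)
  | (v, i, true) => (v * FreeGroup.of i, some i)

theorem coc3 : Coc (src3 (ι := ι)) tgt3 := by
  intro H _ g
  obtain ⟨c, hc⟩ := coc_free ι H fun e =>
    g (e.1, e.2, false) * g (e.1, e.2, true) * (g (e.1 * FreeGroup.of e.2, e.2, false))⁻¹
  refine ⟨fun n => n.2.elim (c n.1) fun i => c n.1 * g (n.1, i, false), ?_⟩
  rintro ⟨v, i, _ | _⟩
  · rfl
  · have := hc (v, i)
    simp only [src3, tgt3, Option.elim] at this ⊢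
    rw [this]
    group

theorem conn3 (t t' : FreeGroup ι × Option ι) :
    ReflTransGen (fun u v => ∃ e, End src3 tgt3 e u v) t t' := by
  have a : ∀ t : FreeGroup ι × Option ι,
      ReflTransGen (fun u v => ∃ e, End src3 tgt3 e u v) t (t.1, none) ∧
      ReflTransGen (fun u v => ∃ e, End src3 tgt3 e u v) (t.1, none) t := by
    rintro ⟨v, _ | i⟩
    · exact ⟨.refl, .refl⟩
    · exact ⟨.single ⟨(v, i, false), Or.inr ⟨rfl, rfl⟩⟩, .single ⟨(v, i, false), Or.inl ⟨rfl, rfl⟩⟩⟩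
  refine ((a t).1.trans ?_).trans (a t').2
  have p := conn_free ι t.1 t'.1
  generalize t'.1 = w at p
  induction p with
  | refl => exact .refl
  | tail _ k ih =>
    obtain ⟨⟨v, i⟩, ⟨k1, k2⟩ | ⟨k1, k2⟩⟩ := k <;> rw [k1] at ih <;> rw [k2]
    · exact ((ih.trans (a (v, some i)).2).tail ⟨(v, i, true), Or.inl ⟨rfl, rfl⟩⟩).trans (a _).1
    · exact ((ih.trans (a (_, some i)).2).tail ⟨(v, i, true), Or.inr ⟨rfl, rfl⟩⟩).trans (a _).1

end Crest.Agent.N233.Ae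

end
private theorem rz_26f989e50e : type_of% @_root_.Crest.Agent.N233.Ae.src3.eq_1 := @_root_.Crest.Agent.N233.Ae.src3.eq_1 -- L61
private theorem rz_83c6702302 : type_of% @_root_.Crest.Agent.N233.Ae.tgt3.eq_1 := @_root_.Crest.Agent.N233.Ae.tgt3.eq_1 -- L66
end

-- ▼ part N233/Pc/QB

/-!
# Row 233 (helper86): the Borromean piece collapses onto its walls `1, 2`; the wall `0` is
null-homotopic modulo either of them
-/

set_option autoImplicit false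
open Set unitInterval Topology

noncomputable section

namespace Crest.Agent.N233.Pc

namespace QB

open GB Ae

theorem nb_bot {k : R2} (h : k.2 = -1) : nb k = |k.1| := by
  rw [nb, sc, h, show k.1 * (-1 + 2) = k.1 by ring, max_eq_left (by simp)]

theorem nb_le {k : R2} (h : ‖k‖ = 1) : nb k ≤ 1 ↔ k.2 = -1 := by
  refine ⟨fun a => ?_, fun a => (nb_bot a).trans_le (h ▸ le_max_left _ _)⟩
  have b := al_sc h (by linarith)
  rw [al_in ((sc_le k).trans a)] at b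
  exact (congrArg Prod.snd b).symm

theorem le_nb {k : R2} (h : ‖k‖ = 1) : 1 ≤ nb k ↔ -|k.1| ≤ k.2 := by
  have b : |k.1| ≤ 1 := h ▸ le_max_left _ _
  by_cases a : k.2 = -1
  · rw [nb_bot a, a, neg_le_neg_iff]
  refine iff_of_true (le_of_not_ge fun c => a ((nb_le h).1 c)) ?_
  have c : |k.2| ≤ 1 := h ▸ le_max_right _ _
  rcases max_eq_iff.1 (show max |k.1| |k.2| = 1 from h) with ⟨e, -⟩ | ⟨e, -⟩
  · rw [e]; exact (abs_le.1 c).1
  · rcases (abs_eq zero_le_one).1 e with e | e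
    · linarith [abs_nonneg k.1]
    · exact absurd e a

/-- the speed of the collapse -/
def sp (q : KK × I) : ℝ := q.2 * min 1 (2 * nb q.1.1)

theorem sp_mem (q : KK × I) : 0 ≤ sp q ∧ sp q ≤ 1 := by
  have a : 0 ≤ min 1 (2 * nb q.1.1) :=
    le_min zero_le_one (by linarith [sc_le q.1.1, abs_nonneg (sc q.1.1)])
  exact ⟨mul_nonneg q.2.2.1 a, mul_le_one₀ q.2.2.2 a (min_le_left _ _)⟩

/-- towards the middle of the top edge -/
def ln (q : KK × I) : R2 := ((1 - sp q) * q.1.1.1, (1 - sp q) * q.1.1.2 + sp q)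

theorem ln_ne (q : KK × I) : ‖ln q‖ ≠ 0 := by
  intro h
  obtain ⟨a, b⟩ := Prod.ext_iff.1 (norm_eq_zero.1 h)
  have a' : (1 - sp q) * q.1.1.1 = 0 := a
  have b' : (1 - sp q) * q.1.1.2 + sp q = 0 := b
  rcases mul_eq_zero.1 a' with c | c
  · rw [c] at b'; linarith
  have e : |q.1.1.2| = 1 := by
    have := nK q.1
    rwa [nrm, c, abs_zero, max_eq_right (abs_nonneg _)] at this
  rcases (abs_eq zero_le_one).1 e with e | e
  · rw [e] at b'; linarith
  · have : sp q = 0 := by rw [sp, nb_bot e, c]; simp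
    rw [this, e] at b'; linarith

/-- the collapse of the circle -/
def ph (q : KK × I) : KK := ⟨‖ln q‖⁻¹ • ln q, mem_sphere_zero_iff_norm.2 (by
  rw [norm_smul, norm_inv, norm_norm, inv_mul_cancel₀ (ln_ne q)])⟩

@[fun_prop] theorem c_ph : Continuous ph := by
  have : Continuous ln := by unfold ln sp; fun_prop
  exact ((this.norm.inv₀ ln_ne).smul this).subtype_mk _

/-- the middle of the top edge -/
def pt : KK := ⟨(0, 1), by simp⟩

theorem ph_zero (k : KK) : ph (k, 0) = k := by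
  have : ln (k, 0) = k.1 := by simp [ln, sp]
  exact Subtype.ext (by simp only [ph, this, nK, inv_one, one_smul])

theorem ph_one {k : KK} (h : 1 / 2 ≤ nb k.1) : ph (k, 1) = pt := by
  have : ln (k, 1) = pt.1 := by
    have : sp (k, 1) = 1 := by rw [sp, min_eq_left (by linarith)]; simp
    simp [ln, this, pt]
  exact Subtype.ext (by simp only [ph, this, nK, inv_one, one_smul])

theorem ph_top {q : KK × I} (h : q.1.1.2 = 1) : (ph q).1.2 = 1 := by
  have a : (ln q).2 = 1 := by simp [ln, h]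
  have b : ‖ln q‖ = 1 := by
    obtain ⟨c, d⟩ := sp_mem q
    have e : |q.1.1.1| ≤ 1 := (le_max_left _ _).trans (nK q.1).le
    rw [nrm, a, abs_one, max_eq_right]
    show |(1 - sp q) * q.1.1.1| ≤ 1
    rw [abs_mul, abs_of_nonneg (by linarith)]
    exact mul_le_one₀ (by linarith) (abs_nonneg _) e
  simp only [ph, b, inv_one, one_smul, a]

theorem ph_nb {q : KK × I} (h : 1 ≤ nb q.1.1) : 1 ≤ nb (ph q).1 := by
  rw [le_nb (nK _)] at h ⊢
  obtain ⟨c, d⟩ := sp_mem q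
  have e : 0 ≤ ‖ln q‖⁻¹ := by positivity
  show -|‖ln q‖⁻¹ * ((1 - sp q) * q.1.1.1)| ≤ ‖ln q‖⁻¹ * ((1 - sp q) * q.1.1.2 + sp q)
  rw [abs_mul, abs_mul, abs_of_nonneg e, abs_of_nonneg (sub_nonneg.2 d), ← mul_neg, ← mul_neg]
  exact mul_le_mul_of_nonneg_left
    (by linarith [mul_le_mul_of_nonneg_left h (sub_nonneg.2 d)]) e

/-- the punctured torus -/
abbrev T0 : Type := {y : KK × KK // 1 ≤ nT y.1.1 y.2.1}

/-- its collapse -/
def Ph (q : T0 × I) : T0 := ⟨(ph (q.1.1.1, q.2), flK (ph (flK q.1.1.2, q.2))), by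
  rcases le_max_iff.1 q.1.2 with h | h
  · refine le_max_of_le_left ?_
    show 1 ≤ nb (fl (fl _))
    rw [fl_fl]; exact ph_nb (q := (flK q.1.1.2, q.2)) h
  · exact le_max_of_le_right (ph_nb (q := (q.1.1.1, q.2)) h)⟩

theorem flK_flK (k : KK) : flK (flK k) = k := Subtype.ext (fl_fl _)

@[fun_prop] theorem c_Ph : Continuous Ph :=
  have := c_flK
  Continuous.subtype_mk (by fun_prop) _

theorem Ph_zero (y : T0) : Ph (y, 0) = y :=
  Subtype.ext (Prod.ext (ph_zero _) ((congrArg flK (ph_zero _)).trans (flK_flK _)))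

theorem Ph_bot {q : T0 × I} (h : q.1.1.2.1.2 = -1) : (Ph q).1.2.1.2 = -1 :=
  congrArg Neg.neg (ph_top (q := (flK q.1.1.2, q.2)) (show -q.1.1.2.1.2 = 1 by rw [h, neg_neg]))

/-- the base point -/
def y0 : T0 := ⟨(pt, flK pt), le_max_of_le_right (le_max_of_le_right (by norm_num [pt]))⟩

/-- projection to the unit ball -/
def pb (z : R2) : R2 := (max 1 ‖z‖)⁻¹ • z

@[fun_prop] theorem c_pb : Continuous pb :=
  ((continuous_const.max continuous_norm).inv₀ fun _ => (lt_max_of_lt_left one_pos).ne').smul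
    continuous_id

theorem pb_le (z : R2) : ‖pb z‖ ≤ 1 := by
  rw [pb, norm_smul, Real.norm_of_nonneg (by positivity), inv_mul_le_iff₀ (by positivity), mul_one]
  exact le_max_right _ _

theorem pb_eq {z : R2} (h : ‖z‖ ≤ 1) : pb z = z := by rw [pb, max_eq_left h, inv_one, one_smul]

/-- points of the core -/
def mk (z : R2) (y : T0) : EB := ⟨(pb z, y.1), fun j => by
  have := pb_le z
  fin_cases j
  · exact mul_nonneg (by norm_num) (sub_nonneg.2 y.2)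
  all_goals exact mul_nonneg (by norm_num) (le_max_of_le_right (sub_nonneg.2 this))⟩

@[fun_prop] theorem c_mk : Continuous fun q : R2 × T0 => mk q.1 q.2 :=
  Continuous.subtype_mk (by fun_prop) _

/-- the torus coordinates -/
def yy (x : EB) : T0 := ⟨x.1.2, by have := x.2 0; rw [tB0] at this; linarith⟩

@[fun_prop] theorem c_yy : Continuous yy := Continuous.subtype_mk (by fun_prop) _

theorem mk_self {x : EB} (h : ‖x.1.1‖ ≤ 1) : mk x.1.1 (yy x) = x :=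
  Subtype.ext (Prod.ext (pb_eq h) rfl)

theorem ht_le {z : R2} (h : ‖z‖ ≤ 1) {a : ℝ} (ha : 0 ≤ a) : ht z ≤ a := max_le ha (by linarith)

theorem wall {z : R2} (h : ‖z‖ ≤ 1) {b : R2 → ℝ} {P : R2 → Prop}
    (hb : ∀ k, ‖k‖ = 1 → (b k ≤ 1 ↔ P k)) (hP : P z → |z.2| = 1) :
    4 * max (b (nz z) - 1) (1 - ‖z‖) = 0 ↔ P z := by
  have e : ‖z‖ = 1 → nz z = z := fun e => by simpa using nz_sm e (ρ := 1) (by norm_num)
  constructor
  · intro k
    have n : ‖z‖ = 1 := by linarith [le_max_right (b (nz z) - 1) (1 - ‖z‖)]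
    rw [e n] at k
    exact (hb z n).1 (by linarith [le_max_left (b z - 1) (1 - ‖z‖)])
  · intro k
    have n : ‖z‖ = 1 := le_antisymm h (hP k ▸ le_max_right _ _)
    rw [e n, n, max_eq_right (by linarith [(hb z n).2 k])]; ring

theorem nT_le {b t : R2} (hb : ‖b‖ = 1) (ht : ‖t‖ = 1) : nT b t ≤ 1 ↔ t.2 = 1 ∧ b.2 = -1 := by
  rw [nT, max_le_iff, nb_le hb, nb_le ((norm_fl t).trans ht), fl, neg_inj]

theorem wall1 {x : EB} (h : ‖x.1.1‖ ≤ 1) : tB x.1 1 = 0 ↔ x.1.1.2 = 1 ∧ x.1.2.2.1.2 = -1 :=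
  wall h (b := nT x.1.2.2.1) (P := fun k => k.2 = 1 ∧ x.1.2.2.1.2 = -1)
    (fun _ hk => nT_le (nK _) hk) fun k => by rw [k.1, abs_one]

theorem wall2 {x : EB} (h : ‖x.1.1‖ ≤ 1) : tB x.1 2 = 0 ↔ x.1.2.1.1.2 = 1 ∧ x.1.1.2 = -1 :=
  wall h (b := fun k => nT k x.1.2.1.1) (P := fun k => x.1.2.1.1.2 = 1 ∧ k.2 = -1)
    (fun _ hk => nT_le hk (nK _)) fun k => by rw [k.2, abs_neg, abs_one]

theorem mk1 {z : R2} {y : T0} (h : ‖z‖ ≤ 1) (a : z.2 = 1) (b : y.1.2.1.2 = -1) :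
    tB (mk z y).1 1 = 0 := (wall1 (pb_le z)).2 ⟨(congrArg Prod.snd (pb_eq h)).trans a, b⟩

theorem mk2 {z : R2} {y : T0} (h : ‖z‖ ≤ 1) (a : z.2 = -1) (b : y.1.1.1.2 = 1) :
    tB (mk z y).1 2 = 0 := (wall2 (pb_le z)).2 ⟨b, (congrArg Prod.snd (pb_eq h)).trans a⟩

/-- the radial factor -/
def rf (z : R2) (t : ℝ) : ℝ := 1 - t + t * (max 1 ‖z‖)⁻¹

theorem rf_big {z : R2} (h : 1 < ‖z‖) (t : I) :
    1 ≤ ‖rf z t • z‖ ∧ ‖rf z t • z‖ ≤ ‖z‖ ∧ nz (rf z t • z) = nz z := by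
  have a := t.2.1
  have b := t.2.2
  have e : rf z t • z = ((1 - t) * ‖z‖ + t) • nz z := by
    conv_lhs => rw [rf, max_eq_right h.le]; arg 2; rw [← smul_nz (z := z) (by linarith)]
    rw [smul_smul]; congr 1; field_simp
  have n := norm_nz (z := z) (by linarith)
  have c : 1 ≤ (1 - t) * ‖z‖ + t := by nlinarith
  rw [e, norm_sm n (by linarith), nz_sm n (by linarith)]
  exact ⟨c, by nlinarith, rfl⟩

theorem rf_small {z : R2} (h : ‖z‖ ≤ 1) (t : ℝ) : rf z t • z = z := by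
  rw [rf, max_eq_left h]; simp

theorem tB_rf (x : EB) (t : I) (j : Fin 3) : tB (rf x.1.1 t • x.1.1, x.1.2) j = tB x.1 j := by
  rcases le_or_gt ‖x.1.1‖ 1 with h | h
  · rw [rf_small h]
  obtain ⟨a, -, c⟩ := rf_big h t
  have h1 : 1 ≤ nT x.1.2.2.1 (nz x.1.1) := mx (x.2 1) h
  have h2 : 1 ≤ nT (nz x.1.1) x.1.2.1.1 := mx (x.2 2) h
  fin_cases j
  · rfl
  · refine (tB1 _).trans (Eq.trans ?_ (tB1 _).symm)
    dsimp only
    rw [c, max_eq_left (by linarith), max_eq_left (by linarith)]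
  · refine (tB2 _).trans (Eq.trans ?_ (tB2 _).symm)
    dsimp only
    rw [c, max_eq_left (by linarith), max_eq_left (by linarith)]

/-- the radial deformation -/
def rad (q : EB × I) : EB :=
  ⟨(rf q.1.1.1 q.2 • q.1.1.1, q.1.1.2), fun j => (tB_rf q.1 q.2 j).symm ▸ q.1.2 j⟩

theorem c_rad : Continuous rad := by
  have : Continuous fun q : EB × I => (max 1 ‖q.1.1.1‖)⁻¹ :=
    Continuous.inv₀ (by fun_prop) fun _ => (lt_max_of_lt_left one_pos).ne'
  exact Continuous.subtype_mk (by unfold rf; fun_prop) _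

theorem rad_zero (x : EB) : rad (x, 0) = x := Subtype.ext (Prod.ext (by simp [rad, rf]) rfl)

theorem rad_one (x : EB) : rad (x, 1) = mk x.1.1 (yy x) :=
  Subtype.ext (Prod.ext (by simp [rad, rf, mk, pb]) rfl)

theorem ht_rad (q : EB × I) : ht (rad q).1.1 ≤ ht q.1.1.1 := by
  rcases le_or_gt ‖q.1.1.1‖ 1 with h | h
  · exact (congrArg ht (rf_small h _)).le
  · exact max_le_max le_rfl (sub_le_sub_right (rf_big h q.2).2.1 _)

theorem seg_le {z w : R2} (hz : ‖z‖ ≤ 1) (hw : ‖w‖ ≤ 1) (t : I) :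
    ‖(1 - (t : ℝ)) • z + (t : ℝ) • w‖ ≤ 1 := by
  have a := t.2.1
  have b := t.2.2
  refine (norm_add_le _ _).trans ?_
  rw [norm_smul, norm_smul, Real.norm_of_nonneg a, Real.norm_of_nonneg (by linarith)]
  nlinarith

/-- the walls -/
abbrev DB (j : Fin 3) : Set EB := {x | tB x.1 j = 0}

/-- the push towards the walls -/
def tg (x : EB) : R2 := (0, max (-1) (min 1 (x.1.1.2 + 4 * (max 0 (1 - nb x.1.2.1.1) -
  max 0 (1 - nb (fl x.1.2.2.1))))))

theorem tg_le (x : EB) : ‖tg x‖ ≤ 1 :=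
  max_le (by simp [tg]) (abs_le.2 ⟨le_max_left _ _, max_le (by norm_num) (min_le_left _ _)⟩)

theorem tg1 {x : EB} (h : 1 ≤ nb (fl x.1.2.2.1)) (k : 1 ≤ x.1.1.2 + 4 * max 0 (1 - nb x.1.2.1.1)) :
    (tg x).2 = 1 := by
  simp only [tg]
  rw [max_eq_left (a := (0 : ℝ)) (b := 1 - nb (fl _)) (by linarith), min_eq_left (by linarith),
    max_eq_right (by norm_num)]

theorem tg2 {x : EB} (h : 1 ≤ nb x.1.2.1.1) (k : x.1.1.2 - 4 * max 0 (1 - nb (fl x.1.2.2.1)) ≤ -1) :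
    (tg x).2 = -1 := by
  simp only [tg]
  rw [max_eq_left (a := (0 : ℝ)) (b := 1 - nb x.1.2.1.1) (by linarith),
    max_eq_left (min_le_of_right_le (by linarith))]

theorem top_nb {k : R2} (h : k.2 = 1) : 1 ≤ nb k := le_max_of_le_right (by rw [h]; norm_num)

variable {Y : Type} [TopologicalSpace Y]

theorem q5 : Q Y {x : EB | ‖x.1.1‖ ≤ 1 ∧ (x ∈ DB 1 ∨ x ∈ DB 2 ∨ (x.1.1.1 = 0 ∧ yy x = y0))}
    (Rel DB {1, 2}) := by
  have n : ∀ {z : R2}, ‖z‖ ≤ 1 → ∀ t : I, ‖((0, (1 - t) * z.2) : R2)‖ ≤ 1 := fun {z} h t =>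
    max_le (by simp) (by
      rw [norm_mul, Real.norm_of_nonneg (by linarith [t.2.2])]
      exact mul_le_one₀ (by linarith [t.2.1]) (norm_nonneg _) ((le_max_right _ _).trans h))
  have m : ∀ s : ℝ, mk (0, s) y0 ∈
      {x : EB | ‖x.1.1‖ ≤ 1 ∧ (x ∈ DB 1 ∨ x ∈ DB 2 ∨ (x.1.1.1 = 0 ∧ yy x = y0))} := fun s =>
    ⟨pb_le _, Or.inr (Or.inr ⟨by simp [mk, pb], rfl⟩)⟩
  refine (q_of_rel (A := {mk (0, 0) y0}) rfl fun x hx => Or.inl hx).deform
    (singleton_subset_iff.2 (m 0)) (r := fun q => mk (0, (1 - q.2) * q.1.1.1.2) y0)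
    (by fun_prop) (fun x _ t => m _) (fun x hx => ?_) (fun x _ => by simp) ?_
  · rcases hx.2 with h | h | h
    · exact Or.inr ⟨1, by simp, mk1 (n hx.1 0) (by simp [((wall1 hx.1).1 h).1]) rfl, h⟩
    · exact Or.inr ⟨2, by simp, mk2 (n hx.1 0) (by simp [((wall2 hx.1).1 h).2]) rfl, h⟩
    · left
      conv_rhs => rw [← mk_self hx.1, h.2]
      exact congrArg (mk · y0) (Prod.ext h.1.symm (by simp))
  · rintro x hx x' hx' ⟨j, rfl | rfl, a, b⟩ t <;> left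
    · simp only [((wall1 hx.1).1 a).1, ((wall1 hx'.1).1 b).1]
    · simp only [((wall2 hx.1).1 a).2, ((wall2 hx'.1).1 b).2]

theorem q1 : Q Y {x : EB | ‖x.1.1‖ ≤ 1} (Rel DB {1, 2}) := by
  have c : Continuous tg := by unfold tg; fun_prop
  have w1 : ∀ x : EB, ‖x.1.1‖ ≤ 1 → x ∈ DB 1 → ∀ t : I,
      mk ((1 - (t : ℝ)) • x.1.1 + (t : ℝ) • tg x) (Ph (yy x, t)) ∈ DB 1 := fun x hx h t => by
    obtain ⟨a, b⟩ := (wall1 hx).1 h
    refine mk1 (seg_le hx (tg_le x) t) ?_ (Ph_bot b)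
    simp [a, tg1 (x := x) (top_nb (by simp [fl, b])) (by linarith [le_max_left 0 (1 - nb x.1.2.1.1)])]
  have w2 : ∀ x : EB, ‖x.1.1‖ ≤ 1 → x ∈ DB 2 → ∀ t : I,
      mk ((1 - (t : ℝ)) • x.1.1 + (t : ℝ) • tg x) (Ph (yy x, t)) ∈ DB 2 := fun x hx h t => by
    obtain ⟨a, b⟩ := (wall2 hx).1 h
    refine mk2 (seg_le hx (tg_le x) t) ?_ (ph_top a)
    simp [b, tg2 (x := x) (top_nb a) (by linarith [le_max_left 0 (1 - nb (fl x.1.2.2.1))])]
    ring
  refine q5.deform (fun _ h => h.1)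
    (r := fun q => mk ((1 - (q.2 : ℝ)) • q.1.1.1 + (q.2 : ℝ) • tg q.1) (Ph (yy q.1, q.2)))
    (by fun_prop) (fun _ _ _ => pb_le _) (fun x hx => Or.inl ?_) (fun x hx => ⟨pb_le _, ?_⟩) ?_
  · simpa [Ph_zero] using mk_self hx
  · obtain ⟨z1, z2⟩ := abs_le.1 (show |x.1.1.2| ≤ 1 from (le_max_right _ _).trans hx)
    have T := le_max_iff.1 (yy x).2
    have e : (1 - ((1 : I) : ℝ)) • x.1.1 + ((1 : I) : ℝ) • tg x = tg x := by simp
    simp only [e]
    by_cases a : nb x.1.2.1.1 < 1 / 2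
    · have b : 1 ≤ nb (fl x.1.2.2.1) := T.resolve_right fun k : 1 ≤ nb x.1.2.1.1 => by linarith
      exact Or.inl (mk1 (tg_le x) (tg1 b (by linarith [le_max_right 0 (1 - nb x.1.2.1.1)]))
        (congrArg (fun k => (flK k).1.2) (ph_one (k := flK x.1.2.2) (b.trans' (by norm_num)))))
    by_cases b : nb (fl x.1.2.2.1) < 1 / 2
    · have a : 1 ≤ nb x.1.2.1.1 := T.resolve_left fun k : 1 ≤ nb (fl x.1.2.2.1) => by linarith
      exact Or.inr (Or.inl (mk2 (tg_le x)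
        (tg2 a (by linarith [le_max_right 0 (1 - nb (fl x.1.2.2.1))]))
        (congrArg (fun k => k.1.2) (ph_one (k := x.1.2.1) (a.trans' (by norm_num))))))
    · exact Or.inr (Or.inr ⟨by simp [mk, pb, tg], Subtype.ext (Prod.ext (ph_one (not_lt.1 a))
        (congrArg flK (ph_one (k := flK x.1.2.2) (not_lt.1 b))))⟩)
  · rintro x hx x' hx' ⟨j, rfl | rfl, a, b⟩ t
    exacts [Or.inr ⟨1, by simp, w1 x hx a t, w1 x' hx' b t⟩,
      Or.inr ⟨2, by simp, w2 x hx a t, w2 x' hx' b t⟩]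

theorem pre {a : ℝ} (ha : 0 ≤ a) {g : EB → Y} (c : ContinuousOn g {x | ht x.1.1 ≤ a}) {B : Set EB}
    (hB : B ⊆ {x | ht x.1.1 ≤ a}) (w : R2) (h : NulM (fun x => g (mk w (Ph (yy x, 1)))) B) :
    NulM g B := by
  refine NulM.of_htpy (G := fun q => g (rad q))
    (c.comp c_rad.continuousOn fun q hq => (ht_rad q).trans (hB hq.1))
    (fun x _ => congrArg g (rad_zero x)) (NulM.of_htpy
      (G := fun q => g (mk ((1 - (q.2 : ℝ)) • q.1.1.1 + (q.2 : ℝ) • w) (Ph (yy q.1, q.2))))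
      (c.comp (by fun_prop) fun _ _ => ht_le (pb_le _) ha) (fun x _ => ?_) (by simpa using h))
  simp [rad_one, Ph_zero]

theorem nul {a : ℝ} (ha : 0 ≤ a) {g : EB → Y} (c : ContinuousOn g {x | ht x.1.1 ≤ a}) (w : R2)
    {f : ℝ → T0} (cf : Continuous f) {s : EB → ℝ} (cs : Continuous s) (B : Set EB) :
    NulM (fun x => g (mk w (f (s x)))) B :=
  ⟨fun q => g (mk w (f ((1 - q.2) * s q.1))), g (mk w (f 0)),
    c.comp (by fun_prop) fun _ _ => ht_le (pb_le _) ha, fun x _ => by simp, fun x _ => by simp⟩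

end QB

open QB GB Ae

variable {Y : Type} [TopologicalSpace Y] {a : ℝ}

/-- **the Borromean piece collapses onto the walls `1, 2`** -/
theorem qB (ha : 0 ≤ a) :
    Q Y {x : EB | ht x.1.1 ≤ a} (Rel (fun j => {x : EB | tB x.1 j = 0}) {1, 2}) :=
  q1.deform (fun _ h => ht_le h ha) (r := rad) c_rad.continuousOn
    (fun x hx t => (ht_rad (x, t)).trans hx) (fun x _ => Or.inl (rad_zero x))
    (fun x _ => by rw [rad_one]; exact pb_le _) fun x _ x' _ ⟨j, hj, p, q⟩ t =>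
      Or.inr ⟨j, hj, (tB_rf x t j).trans p, (tB_rf x' t j).trans q⟩

/-- **the wall `0` is null-homotopic modulo the wall `1`** -/
theorem nqB1 (ha : 0 ≤ a) :
    Nq Y {x : EB | ht x.1.1 ≤ a} (Rel (fun j => {x : EB | tB x.1 j = 0}) {1})
      ({x : EB | ht x.1.1 ≤ a} ∩ {x : EB | tB x.1 0 = 0}) := fun g c r => by
  have := c_flK
  have n : ‖((0, 1) : R2)‖ ≤ 1 := by simp
  refine pre ha c inter_subset_left (0, 1) ((nul ha c (0, 1) (s := fun x => x.1.2.2.1.1)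
    (f := fun s => ⟨(pt, flK (ph (flK (tp (s, 0)), 1))), le_max_of_le_right (top_nb rfl)⟩)
    (Continuous.subtype_mk (by fun_prop) _) (by fun_prop) _).congr fun x hx => ?_)
  have k := (nT_le (nK x.1.2.1) (nK x.1.2.2)).1 (by have := hx.2; rw [mem_ofPred, tB0] at this; linarith)
  have e : tp (x.1.2.2.1.1, 0) = x.1.2.2 := Subtype.ext ((to_one (c := (x.1.2.2.1.1, 0)) (max_le
    ((le_max_left _ _).trans (nK x.1.2.2).le) (by simp))).trans (Prod.ext rfl k.1.symm))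
  simp only [e]
  rcases le_max_iff.1 (yy x).2 with h | h
  · have b := congrArg (fun k => (flK k).1.2) (ph_one (k := flK x.1.2.2) (h.trans' (by norm_num)))
    exact r _ (ht_le (pb_le _) ha) _ (ht_le (pb_le _) ha) ⟨1, rfl, mk1 n rfl b, mk1 n rfl b⟩
  · exact congrArg (fun y => g (mk _ y))
      (Subtype.ext (Prod.ext (ph_one (k := x.1.2.1) (h.trans' (by norm_num))) rfl))

/-- **the wall `0` is null-homotopic modulo the wall `2`** -/
theorem nqB2 (ha : 0 ≤ a) :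
    Nq Y {x : EB | ht x.1.1 ≤ a} (Rel (fun j => {x : EB | tB x.1 j = 0}) {2})
      ({x : EB | ht x.1.1 ≤ a} ∩ {x : EB | tB x.1 0 = 0}) := fun g c r => by
  have n : ‖((0, -1) : R2)‖ ≤ 1 := by simp
  refine pre ha c inter_subset_left (0, -1) ((nul ha c (0, -1) (s := fun x => x.1.2.1.1.1)
    (f := fun s => ⟨(ph (bo (0, s), 1), flK pt), le_max_of_le_left (top_nb (by simp [fl, flK, pt]))⟩)
    (Continuous.subtype_mk (by fun_prop) _) (by fun_prop) _).congr fun x hx => ?_)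
  have k := (nT_le (nK x.1.2.1) (nK x.1.2.2)).1 (by have := hx.2; rw [mem_ofPred, tB0] at this; linarith)
  have e : bo (0, x.1.2.1.1.1) = x.1.2.1 := Subtype.ext ((bo_one (max_le (by simp)
    ((le_max_left _ _).trans (nK x.1.2.1).le))).trans (Prod.ext rfl k.2.symm))
  simp only [e]
  rcases le_max_iff.1 (yy x).2 with h | h
  · exact congrArg (fun y => g (mk _ y)) (Subtype.ext (Prod.ext rfl
      (congrArg flK (ph_one (k := flK x.1.2.2) (h.trans' (by norm_num))))))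
  · have b := congrArg (fun k => k.1.2) (ph_one (k := x.1.2.1) (h.trans' (by norm_num)))
    exact r _ (ht_le (pb_le _) ha) _ (ht_le (pb_le _) ha) ⟨2, rfl, mk2 n rfl b, mk2 n rfl b⟩

/-- both cases -/
theorem nqB (ha : 0 ≤ a) {j : Fin 3} (hj : j ≠ 0) :
    Nq Y {x : EB | ht x.1.1 ≤ a} (Rel (fun j => {x : EB | tB x.1 j = 0}) {j})
      ({x : EB | ht x.1.1 ≤ a} ∩ {x : EB | tB x.1 0 = 0}) := by
  fin_cases j
  exacts [absurd rfl hj, nqB1 ha, nqB2 ha]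

end Crest.Agent.N233.Pc

end
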